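import Vale.Agent.P011.H948.SIalg
import Vale.Agent.P011.H182.Nma

/-!
**Newton's method without completion.** If `w0` is unitary, `T ((x0 - 1) w0) = 0` and
`m0 = (x0 - 1) w0`, `star m0` are independent over `K`, then for every absolute value of `k` and all
`x` near `x0` there are exactly unitary elements `w` of `D` near `w0` with `T ((x - 1) w)` as small
as one likes.
-/

open Module

set_option linter.unusedSectionVars false
set_option linter.unusedVariables false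

namespace Vale.Agent.P011.H756

open Vale.Agent.P011.H775 Vale.Agent.P011.H948 Vale.Agent.P011.H182

/-- Approximate fixed points of contractions. -/
theorem approx_fixed {X : Type} [AddCommGroup X] (n : X → ℝ) (n0 : n 0 = 0)
    (nadd : ∀ x y, n (x + y) ≤ n x + n y) (nneg : ∀ x, n (-x) = n x) (F : X → X) (P : X → Prop)
    (P0 : P 0) (PF : ∀ x, P (F x)) (r : ℝ)
    (hL : ∀ x y, P x → P y → n x ≤ r → n y ≤ r → n (F x - F y) ≤ 1 / 2 * n (x - y))
    (h0 : n (F 0) ≤ r / 2) : ∀ δ : ℝ, 0 < δ → ∃ x, P x ∧ n x ≤ r ∧ n (x - F x) < δ := by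
  intro δ hδ
  have hnn : ∀ x, 0 ≤ n x := fun x => by
    have h1 := nadd x (-x)
    rw [add_neg_cancel, n0, nneg] at h1
    linarith
  have hr : 0 ≤ r := by
    have := hnn (F 0)
    linarith
  have hP : ∀ j, P (F^[j] 0) := by
    intro j
    cases j with
    | zero => exact P0
    | succ j => rw [Function.iterate_succ_apply']; exact PF _
  have hj : ∀ j : ℕ, n (F^[j] 0) ≤ r * (1 - (1 / 2) ^ j) ∧
      n (F^[j + 1] 0 - F^[j] 0) ≤ r / 2 * (1 / 2) ^ j := by
    intro j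
    induction j with
    | zero =>
      constructor
      · simp [n0]
      · simpa using h0
    | succ j ih =>
      have hp : (0 : ℝ) < (1 / 2) ^ j := by positivity
      have h1 : n (F^[j + 1] 0) ≤ r * (1 - (1 / 2) ^ (j + 1)) := by
        have h2 := nadd (F^[j + 1] 0 - F^[j] 0) (F^[j] 0)
        rw [sub_add_cancel] at h2
        rw [pow_succ]
        nlinarith [ih.1, ih.2]
      refine ⟨h1, ?_⟩
      have h2 : n (F^[j + 1] 0) ≤ r := by
        refine h1.trans ?_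
        have : (0 : ℝ) ≤ (1 / 2) ^ (j + 1) := by positivity
        nlinarith
      have h3 : n (F^[j] 0) ≤ r := by
        refine ih.1.trans ?_
        nlinarith
      have h4 := hL _ _ (hP (j + 1)) (hP j) h2 h3
      rw [← Function.iterate_succ_apply' F (j + 1), ← Function.iterate_succ_apply' F j] at h4
      refine h4.trans ?_
      rw [pow_succ]
      nlinarith [ih.2]
  obtain ⟨j, hj'⟩ := exists_pow_lt_of_lt_one (show (0 : ℝ) < δ / (r + 1) by positivity)
    (by norm_num : (1 / 2 : ℝ) < 1)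
  refine ⟨F^[j] 0, hP j, ?_, ?_⟩
  · refine (hj j).1.trans ?_
    have : (0 : ℝ) ≤ (1 / 2) ^ j := by positivity
    nlinarith
  · have h1 := (hj j).2
    rw [Function.iterate_succ_apply', ← nneg, neg_sub] at h1
    refine h1.trans_lt ?_
    rw [lt_div_iff₀ (by linarith)] at hj'
    have : (0 : ℝ) < (1 / 2) ^ j := by positivity
    nlinarith

section dual

variable {K D : Type} [Field K] [DivisionRing D] [Algebra K D] {C : Cub K D}

theorem T_nondeg (hT : ∃ x, C.T x ≠ 0) {x : D} (h : ∀ y, C.T (x * y) = 0) : x = 0 := by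
  by_contra hx
  obtain ⟨y, hy⟩ := hT
  apply hy
  have := h (x⁻¹ * y)
  rwa [← mul_assoc, mul_inv_cancel₀ hx, one_mul] at this

/-- Two `K`-independent elements are independent as functionals. -/
theorem exists_T_one_zero (hT : ∃ x, C.T x ≠ 0) {P Q : D} (h : ∀ c : K, P ≠ c • Q) :
    ∃ a : D, C.T (P * a) = 1 ∧ C.T (Q * a) = 0 := by
  by_contra hne
  push Not at hne
  have h3 : ∀ a, C.T (Q * a) = 0 → C.T (P * a) = 0 := by
    intro a ha
    by_contra hb
    refine hne ((C.T (P * a))⁻¹ • a) ?_ ?_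
    · rw [mul_smul_comm, map_smul, smul_eq_mul, inv_mul_cancel₀ hb]
    · rw [mul_smul_comm, map_smul, ha, smul_zero]
  by_cases hQ0 : Q = 0
  · refine h 0 ?_
    rw [zero_smul]
    apply T_nondeg hT
    intro y
    exact h3 y (by rw [hQ0, zero_mul, map_zero])
  obtain ⟨b, hb⟩ : ∃ b, C.T (Q * b) = 1 := by
    obtain ⟨y, hy⟩ := hT
    refine ⟨(C.T y)⁻¹ • (Q⁻¹ * y), ?_⟩
    rw [mul_smul_comm, ← mul_assoc, mul_inv_cancel₀ hQ0, one_mul, map_smul, smul_eq_mul,
      inv_mul_cancel₀ hy]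
  refine h (C.T (P * b)) (sub_eq_zero.1 ?_)
  apply T_nondeg hT
  intro y
  have h5 := h3 (y - C.T (Q * y) • b) (by
    rw [mul_sub, map_sub, mul_smul_comm, map_smul, hb, smul_eq_mul, mul_one, sub_self])
  rw [mul_sub, map_sub, mul_smul_comm, map_smul, smul_eq_mul] at h5
  rw [sub_mul, map_sub, smul_mul_assoc, map_smul, smul_eq_mul, ← h5]
  ring

end dual

section newton

variable {k K D : Type} [Field k] [Field K] [StarRing K] [DivisionRing D] [StarRing D]
  [Algebra k K] [Algebra k D] [Algebra K D] [IsScalarTower k K D] {C : Cub K D}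

/-- `x ↦ T x` as an endomorphism of `D`. -/
def Tm (k : Type) [Field k] [Algebra k K] [Algebra k D] [IsScalarTower k K D] (C : Cub K D) :
    D →ₗ[k] D where
  toFun x := C.T x • (1 : D)
  map_add' x y := by rw [map_add, add_smul]
  map_smul' c x := by
    rw [RingHom.id_apply, ← algebraMap_smul K c x, map_smul, smul_assoc, algebraMap_smul]

theorem Tm_apply (x : D) : Tm k C x = C.T x • (1 : D) := rfl

/-- `(1 + y) (1 - y)⁻¹ = 1 + 2 y + 2 y² (1 - y)⁻¹` -/
theorem cay_expand {y : D} (hy : 1 - y ≠ 0) :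
    (1 + y) * (1 - y)⁻¹ = 1 + (y + y) + (y * y * (1 - y)⁻¹ + y * y * (1 - y)⁻¹) := by
  have h1 : (1 - y) * (1 - y)⁻¹ = 1 := mul_inv_cancel₀ hy
  have h2 : (1 - y)⁻¹ = 1 + y * (1 - y)⁻¹ := by
    rw [sub_mul, one_mul, sub_eq_iff_eq_add] at h1
    exact h1
  have h3 : y * (1 - y)⁻¹ = y + y * y * (1 - y)⁻¹ := by
    conv_lhs => rw [h2]
    rw [mul_add, mul_one, mul_assoc]
  rw [add_mul, one_mul]
  conv_lhs => enter [1]; rw [h2]
  rw [h3]
  abel

/-- `z = (1 - y)⁻¹` is bounded for `y` small. -/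
theorem inv_bound {n : D → ℝ} (nadd : ∀ x y, n (x + y) ≤ n x + n y)
    (nmul : ∀ x y, n (x * y) ≤ n x * n y) (nn : ∀ x, 0 ≤ n x) {y : D} (hy : 1 - y ≠ 0)
    (h : n y ≤ 1 / 2) : n ((1 - y)⁻¹) ≤ 2 * n 1 := by
  have h1 : (1 - y) * (1 - y)⁻¹ = 1 := mul_inv_cancel₀ hy
  have h2 : (1 - y)⁻¹ = 1 + y * (1 - y)⁻¹ := by
    rw [sub_mul, one_mul, sub_eq_iff_eq_add] at h1
    exact h1
  have h3 := nadd 1 (y * (1 - y)⁻¹)
  rw [← h2] at h3
  have h4 := nmul y (1 - y)⁻¹
  have h5 := nn (1 - y)⁻¹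
  nlinarith

theorem star_neg_cay (hsk : ∀ y : D, star y = -y → 1 - y ≠ 0) {y : D} (hy : star y = -y) :
    ((1 + y) * (1 - y)⁻¹) * star ((1 + y) * (1 - y)⁻¹) = 1 := by
  have h1 := hsk y hy
  have h2 : 1 + y ≠ 0 := by
    have := hsk (-y) (by rw [star_neg, hy])
    rwa [sub_neg_eq_add] at this
  rw [star_mul, star_inv₀, star_sub, star_add, star_one, hy, sub_neg_eq_add, ← sub_eq_add_neg]
  have h3 : Commute (1 - y)⁻¹ ((1 + y)⁻¹) := by
    have h5 : Commute (1 - y) (1 + y) :=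
      ((Commute.one_left _).sub_left ((Commute.one_right y).add_right (Commute.refl y)))
    exact (h5.inv_left₀).inv_right₀
  rw [mul_assoc, ← mul_assoc (1 - y)⁻¹, h3.eq, mul_assoc ((1 + y)⁻¹), inv_mul_cancel₀ h1, mul_one,
    mul_inv_cancel₀ h2]

/-- The quadratic remainder is Lipschitz with a small constant. -/
theorem quad_lip {n : D → ℝ} (nadd : ∀ x y, n (x + y) ≤ n x + n y)
    (nmul : ∀ x y, n (x * y) ≤ n x * n y) (nn : ∀ x, 0 ≤ n x) {κ Z0 : ℝ} (hκ0 : 0 < κ)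
    (hZ0 : 0 ≤ Z0) {y y' : D} (h1 : 1 - y ≠ 0) (h2 : 1 - y' ≠ 0) (hyk : n y ≤ κ)
    (hyk' : n y' ≤ κ) (hzk : n ((1 - y)⁻¹) ≤ Z0) (hzk' : n ((1 - y')⁻¹) ≤ Z0) :
    n (y * y * (1 - y)⁻¹ - y' * y' * (1 - y')⁻¹) ≤ (2 * κ * Z0 + κ ^ 2 * Z0 ^ 2) * n (y - y') := by
  obtain ⟨Δ, hΔ⟩ : ∃ Δ, Δ = y - y' := ⟨_, rfl⟩
  obtain ⟨z, hz⟩ : ∃ z, z = (1 - y)⁻¹ := ⟨_, rfl⟩
  obtain ⟨z', hz'⟩ : ∃ z', z' = (1 - y')⁻¹ := ⟨_, rfl⟩
  have hz1 : z - z' = z * Δ * z' := by
    have h3 : Δ = (1 - y') - (1 - y) := by rw [hΔ]; abel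
    rw [hz, hz', h3, mul_sub, sub_mul, inv_mul_cancel₀ h1, one_mul, mul_assoc, mul_inv_cancel₀ h2,
      mul_one]
  rw [← hΔ, ← hz, ← hz']
  rw [← hz] at hzk
  rw [← hz'] at hzk'
  have hdif : y * y * z - y' * y' * z' =
      y * Δ * z + Δ * y' * z + y' * y' * (z * Δ * z') := by
    rw [← hz1, hΔ]
    noncomm_ring
  have hΔ0 := nn Δ
  have hy0 := nn y
  have hy0' := nn y'
  have hz0 := nn z
  have hz0' := nn z'
  have t1 : n (y * Δ * z) ≤ κ * n Δ * Z0 := by
    refine (nmul _ _).trans ?_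
    refine mul_le_mul ((nmul _ _).trans (mul_le_mul_of_nonneg_right hyk hΔ0)) hzk hz0
      (by positivity)
  have t2 : n (Δ * y' * z) ≤ n Δ * κ * Z0 := by
    refine (nmul _ _).trans ?_
    refine mul_le_mul ((nmul _ _).trans (mul_le_mul_of_nonneg_left hyk' hΔ0)) hzk hz0
      (by positivity)
  have t3 : n (y' * y' * (z * Δ * z')) ≤ κ * κ * (Z0 * n Δ * Z0) := by
    refine (nmul _ _).trans ?_
    refine mul_le_mul ((nmul _ _).trans (mul_le_mul hyk' hyk' hy0' hκ0.le)) ?_ (nn _)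
      (by positivity)
    refine (nmul _ _).trans ?_
    exact mul_le_mul ((nmul _ _).trans (mul_le_mul_of_nonneg_right hzk hΔ0)) hzk' hz0'
      (by positivity)
  rw [hdif]
  have t4 := nadd (y * Δ * z + Δ * y' * z) (y' * y' * (z * Δ * z'))
  have t5 := nadd (y * Δ * z) (Δ * y' * z)
  have t6 : n (y * Δ * z + Δ * y' * z + y' * y' * (z * Δ * z')) ≤
      κ * n Δ * Z0 + n Δ * κ * Z0 + κ * κ * (Z0 * n Δ * Z0) := by linarith
  refine t6.trans (le_of_eq ?_)
  ring

/-- The real inequality behind the contraction. -/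
theorem real_lip {τ ρ M1 κ Z0 ne q Δ d : ℝ} (hτ : 0 < τ) (hρ : 0 < ρ) (hM : 0 < M1) (hκ : 0 < κ)
    (hκ1 : κ ≤ 1 / 2) (hZ : 0 ≤ Z0) (hne : 0 ≤ ne) (hΔ : 0 ≤ Δ) (hd : 0 ≤ d)
    (hκ2 : κ * (16 * τ * ρ * M1 * (2 * Z0 + Z0 ^ 2 + 1)) ≤ 1) (hne2 : ne * (16 * τ * ρ) ≤ 1)
    (hq : q ≤ (2 * κ * Z0 + κ ^ 2 * Z0 ^ 2) * Δ) (hΔd : Δ ≤ ρ * d) :
    τ * (2 * (ne * Δ) + 2 * (M1 * q)) ≤ 1 / 2 * d := by
  have f6 : κ ^ 2 * Z0 ^ 2 ≤ κ * Z0 ^ 2 := by
    have : κ ^ 2 ≤ κ := by nlinarith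
    exact mul_le_mul_of_nonneg_right this (by positivity)
  have f7 : (2 * κ * Z0 + κ ^ 2 * Z0 ^ 2) ≤ κ * (2 * Z0 + Z0 ^ 2 + 1) := by nlinarith
  have g1 : M1 * q ≤ M1 * (κ * (2 * Z0 + Z0 ^ 2 + 1) * Δ) :=
    mul_le_mul_of_nonneg_left (hq.trans (mul_le_mul_of_nonneg_right f7 hΔ)) hM.le
  have g2 : 2 * (ne * Δ) + 2 * (M1 * q) ≤
      (2 * ne + 2 * (M1 * (κ * (2 * Z0 + Z0 ^ 2 + 1)))) * (ρ * d) := by
    have g3 : 0 ≤ 2 * ne + 2 * (M1 * (κ * (2 * Z0 + Z0 ^ 2 + 1))) := by positivity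
    have g4 := mul_le_mul_of_nonneg_left hΔd g3
    have g5 : (2 * ne + 2 * (M1 * (κ * (2 * Z0 + Z0 ^ 2 + 1)))) * Δ =
      2 * (ne * Δ) + 2 * (M1 * (κ * (2 * Z0 + Z0 ^ 2 + 1) * Δ)) := by ring
    linarith
  have g3 := mul_le_mul_of_nonneg_left g2 hτ.le
  refine g3.trans ?_
  have g4 : τ * ((2 * ne + 2 * (M1 * (κ * (2 * Z0 + Z0 ^ 2 + 1)))) * (ρ * d)) =
      (1 / 8 * (ne * (16 * τ * ρ)) +
            1 / 8 * (κ * (16 * τ * ρ * M1 * (2 * Z0 + Z0 ^ 2 + 1)))) * d := by ring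
  rw [g4]
  have g5 : (1 / 8 * (ne * (16 * τ * ρ)) +
      1 / 8 * (κ * (16 * τ * ρ * M1 * (2 * Z0 + Z0 ^ 2 + 1)))) * d ≤ (1 / 8 * 1 + 1 / 8 * 1) * d :=
    mul_le_mul_of_nonneg_right (by linarith) hd
  linarith

/-- **Newton's method without completion.** -/
theorem n0 (h : SCub C) (hk : ∀ c : k, star (algebraMap k K c) = algebraMap k K c)
    (h20 : (2 : k) ≠ 0) (hT : ∃ x, C.T x ≠ 0) {N : ℕ} (B : Basis (Fin N) k D)
    {x0 w0 : D} (hw0 : w0 * star w0 = 1) (hT0 : C.T ((x0 - 1) * w0) = 0)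
    (hind : ∀ c : K, (x0 - 1) * w0 ≠ c • star ((x0 - 1) * w0))
    (a : AbsoluteValue k ℝ) {η : ℝ} (hη : 0 < η) :
    ∃ γ : ℝ, 0 < γ ∧ ∀ x : D, na B a (x - x0) < γ → ∀ δ : ℝ, 0 < δ →
      ∃ w : D, w * star w = 1 ∧ na B a (w - w0) < η ∧
        na B a (C.T ((x - 1) * w) • (1 : D)) < δ := by
  classical
  set m0 := (x0 - 1) * w0 with hm0
  -- the section
  obtain ⟨z1, hz1, hz0⟩ := exists_T_one_zero hT hind
  have hstk : ∀ (c : k) (x : D), star (c • x) = c • star x := by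
    intro c x
    rw [← algebraMap_smul K c x, h.smul, hk, algebraMap_smul]
  let σ : D →ₗ[k] D := { toFun := star, map_add' := star_add, map_smul' := hstk }
  let RR : D →ₗ[k] D := (2⁻¹ : k) • (LinearMap.mulRight k z1 - σ ∘ₗ LinearMap.mulRight k z1)
  have hRR : ∀ x, RR x = (2⁻¹ : k) • (x * z1 - star (x * z1)) := fun x => rfl
  have hRs : ∀ x, star (RR x) = -RR x := by
    intro x
    rw [hRR, hstk, star_sub, star_star, ← smul_neg, neg_sub]
  have hRT : ∀ c : K, C.T (m0 * (RR (c • (1 : D)) + RR (c • (1 : D)))) = c := by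
    intro c
    have e1 : RR (c • (1 : D)) + RR (c • (1 : D)) = c • z1 - star (c • z1) := by
      rw [hRR, ← add_smul, smul_mul_assoc, one_mul]
      have : (2⁻¹ + 2⁻¹ : k) = 1 := by field_simp; norm_num
      rw [this, one_smul]
    have e2 : C.T (m0 * star (c • z1)) = star (C.T ((c • z1) * star m0)) := by
      rw [← h.T, star_mul, star_star]
    rw [e1, mul_sub, map_sub, e2, C.T_comm (c • z1), mul_smul_comm, mul_smul_comm, map_smul,
      map_smul, hz1, hz0, smul_zero, star_zero, sub_zero, smul_eq_mul, mul_one]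
  -- unitary elements
  have hsk : ∀ y : D, star y = -y → 1 - y ≠ 0 := by
    intro y hy h0
    have h1 : y = 1 := (sub_eq_zero.1 h0).symm
    rw [h1, star_one] at hy
    have h2 : (2 : k) • (1 : D) = 0 := by
      rw [two_smul]
      nth_rw 1 [hy]
      exact neg_add_cancel _
    exact (smul_ne_zero h20 one_ne_zero) h2
  -- the submultiplicative norm
  obtain ⟨c0, hc0, hmul⟩ := na_mul B a
  have hc0' : 0 < c0 := by linarith
  set n : D → ℝ := fun x => c0 * na B a x with hn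
  have nn : ∀ x, 0 ≤ n x := fun x => mul_nonneg hc0'.le (na_nonneg B a x)
  have n0' : n 0 = 0 := by simp only [hn, na_zero, mul_zero]
  have nadd : ∀ x y, n (x + y) ≤ n x + n y := fun x y => by
    have := mul_le_mul_of_nonneg_left (na_add_le B a x y) hc0'.le
    simp only [hn]
    linarith
  have nneg : ∀ x, n (-x) = n x := fun x => by simp only [hn, na_neg]
  have nsub : ∀ x y, n (x - y) ≤ n x + n y := fun x y => by
    rw [sub_eq_add_neg]
    exact (nadd _ _).trans (by rw [nneg])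
  have nmul : ∀ x y, n (x * y) ≤ n x * n y := fun x y => by
    have := mul_le_mul_of_nonneg_left (hmul x y) hc0'.le
    simp only [hn]
    linarith
  have hle : ∀ x, na B a x ≤ n x := fun x => by
    have := na_nonneg B a x
    simp only [hn]
    nlinarith
  obtain ⟨τ, hτ, hτm⟩ := na_linear B a (Tm k C)
  have nT : ∀ x, n (Tm k C x) ≤ τ * n x := fun x => by
    have := mul_le_mul_of_nonneg_left (hτm x) hc0'.le
    simp only [hn]
    linarith
  obtain ⟨ρ, hρ, hρm⟩ := na_linear B a RR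
  have nR : ∀ x, n (RR x) ≤ ρ * n x := fun x => by
    have := mul_le_mul_of_nonneg_left (hρm x) hc0'.le
    simp only [hn]
    linarith
  set Z0 := 2 * n 1 with hZ0
  have hZ0' : 0 ≤ Z0 := by have := nn 1; positivity
  set M1 := n m0 + 1 with hM1
  have hM1' : 0 < M1 := by have := nn m0; positivity
  -- the constants
  set κ : ℝ := min (1 / 2) (min (1 / (16 * τ * ρ * M1 * (2 * Z0 + Z0 ^ 2 + 1)))
    (η / (4 * (n w0 * Z0 + 1)))) with hκ
  have hκ0 : 0 < κ := by
    have := nn w0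
    rw [hκ]
    refine lt_min (by norm_num) (lt_min (by positivity) (by positivity))
  have hκ1 : κ ≤ 1 / 2 := min_le_left _ _
  have hκ2 : κ * (16 * τ * ρ * M1 * (2 * Z0 + Z0 ^ 2 + 1)) ≤ 1 := by
    rw [← le_div_iff₀ (by positivity)]
    exact (min_le_right _ _).trans (min_le_left _ _)
  have hκ3 : κ * (4 * (n w0 * Z0 + 1)) ≤ η := by
    have := nn w0
    rw [← le_div_iff₀ (by positivity)]
    exact (min_le_right _ _).trans (min_le_right _ _)
  set r := κ / ρ with hr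
  have hr0 : 0 < r := by positivity
  set γ : ℝ := min 1 (min (1 / (16 * τ * ρ)) (r / (4 * τ))) / (c0 * (n w0 + 1)) with hγ
  have hw0n := nn w0
  refine ⟨γ, by positivity, ?_⟩
  intro x hx δ hδ
  set e := (x - x0) * w0 with he
  have hne : n e ≤ min 1 (min (1 / (16 * τ * ρ)) (r / (4 * τ))) := by
    have h1 : n (x - x0) * (n w0 + 1) < min 1 (min (1 / (16 * τ * ρ)) (r / (4 * τ))) := by
      rw [hγ, lt_div_iff₀ (by positivity)] at hx
      simp only [hn] at hx ⊢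
      linarith
    refine (nmul _ _).trans (le_trans ?_ h1.le)
    have := nn (x - x0)
    nlinarith
  have hne1 : n e ≤ 1 := hne.trans (min_le_left _ _)
  have hne2 : n e * (16 * τ * ρ) ≤ 1 := by
    rw [← le_div_iff₀ (by positivity)]
    exact hne.trans ((min_le_right _ _).trans (min_le_left _ _))
  have hne3 : n e * (4 * τ) ≤ r := by
    rw [← le_div_iff₀ (by positivity)]
    exact hne.trans ((min_le_right _ _).trans (min_le_right _ _))
  have hne0 := nn e
  set μ := (x - 1) * w0 with hμ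
  have hμe : μ = m0 + e := by
    rw [hμ, hm0, he, ← add_mul]
    congr 1
    abel
  have hnμ : n μ ≤ M1 := by
    rw [hμe]
    exact (nadd _ _).trans (by rw [hM1]; linarith)
  -- the iteration
  let z : D → D := fun y => (1 - y)⁻¹
  let F : D → D := fun Z => -(Tm k C (e + (e * RR Z + e * RR Z) +
    (μ * (RR Z * RR Z * z (RR Z)) + μ * (RR Z * RR Z * z (RR Z)))))
  have hFP : ∀ Z, ∃ c : K, F Z = c • (1 : D) := fun Z => ⟨_, by
    simp only [F]
    rw [Tm_apply, ← neg_smul]⟩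
  have hbd : ∀ Z, n Z ≤ r → n (RR Z) ≤ κ := by
    intro Z hZ
    refine (nR Z).trans ?_
    rw [hr, le_div_iff₀ hρ] at hZ
    linarith
  have hzb : ∀ Z, n Z ≤ r → n (z (RR Z)) ≤ Z0 := fun Z hZ =>
    inv_bound nadd nmul nn (hsk _ (hRs Z)) ((hbd Z hZ).trans hκ1)
  have hL : ∀ Z Z', n Z ≤ r → n Z' ≤ r → n (F Z - F Z') ≤ 1 / 2 * n (Z - Z') := by
    intro Z Z' hZ hZ'
    have hyk := hbd Z hZ
    have hyk' := hbd Z' hZ'
    have hnd := quad_lip nadd nmul nn hκ0 hZ0' (hsk _ (hRs Z)) (hsk _ (hRs Z')) hyk hyk'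
      (hzb Z hZ) (hzb Z' hZ')
    have hΔn : n (RR Z - RR Z') ≤ ρ * n (Z - Z') := by
      rw [← map_sub]
      exact nR _
    generalize hy : RR Z = y at *
    generalize hy' : RR Z' = y' at *
    have e1 : F Z - F Z' = Tm k C (-((e * (y - y') + e * (y - y')) +
        (μ * (y * y * z y - y' * y' * z y') + μ * (y * y * z y - y' * y' * z y')))) := by
      simp only [F]
      rw [hy, hy', ← map_neg, ← map_neg, ← map_sub]
      congr 1
      simp only [mul_sub]
      abel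
    rw [e1]
    refine (nT _).trans ?_
    rw [nneg]
    have f1 : n (e * (y - y')) ≤ n e * n (y - y') := nmul _ _
    have f2 : n (μ * (y * y * z y - y' * y' * z y')) ≤
        M1 * n (y * y * z y - y' * y' * z y') :=
      (nmul _ _).trans (mul_le_mul_of_nonneg_right hnμ (nn _))
    have f3 := nadd (e * (y - y') + e * (y - y'))
      (μ * (y * y * z y - y' * y' * z y') + μ * (y * y * z y - y' * y' * z y'))
    have f4 := nadd (e * (y - y')) (e * (y - y'))
    have f5 := nadd (μ * (y * y * z y - y' * y' * z y')) (μ * (y * y * z y - y' * y' * z y'))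
    have f8 := real_lip hτ hρ hM1' hκ0 hκ1 hZ0' hne0 (nn (y - y')) (nn (Z - Z')) hκ2 hne2 hnd hΔn
    refine le_trans (mul_le_mul_of_nonneg_left ?_ hτ.le) f8
    linarith
  have hF0 : n (F 0) ≤ r / 2 := by
    have e1 : F 0 = -(Tm k C e) := by
      simp only [F, map_zero, mul_zero, zero_mul, add_zero]
    rw [e1, nneg]
    have := nT e
    linarith
  obtain ⟨Z, ⟨c, hZc⟩, hZr, hZδ⟩ := approx_fixed n n0' nadd nneg F
    (fun Z => ∃ c : K, Z = c • (1 : D)) ⟨0, by rw [zero_smul]⟩ hFP r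
    (fun x y _ _ hx hy => hL x y hx hy) hF0 δ hδ
  set y := RR Z with hy
  have hy1 : 1 - y ≠ 0 := hsk _ (hRs Z)
  refine ⟨w0 * ((1 + y) * (1 - y)⁻¹), ?_, ?_, ?_⟩
  · rw [star_mul, mul_assoc, ← mul_assoc _ (star _) (star w0), star_neg_cay hsk (hRs Z), one_mul,
      hw0]
  · have e1 : w0 * ((1 + y) * (1 - y)⁻¹) - w0 = w0 * (y * z y + y * z y) := by
      have h1 : (1 + y) * (1 - y)⁻¹ = 1 + (y * (1 - y)⁻¹ + y * (1 - y)⁻¹) := by
        have h2 : 1 + y = (1 - y) + (y + y) := by abel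
        rw [h2, add_mul, mul_inv_cancel₀ hy1, add_mul]
      rw [h1, mul_add, mul_one, add_sub_cancel_left]
    rw [e1]
    have hyk := hbd Z hZr
    have hzk := hzb Z hZr
    rw [← hy] at hyk hzk
    have hy0 := nn y
    have hz0 := nn (z y)
    have h1 : n (y * z y) ≤ κ * Z0 := (nmul _ _).trans (mul_le_mul hyk hzk hz0 hκ0.le)
    have h2 : n (w0 * (y * z y + y * z y)) ≤ n w0 * (2 * (κ * Z0)) := by
      refine (nmul _ _).trans (mul_le_mul_of_nonneg_left ?_ hw0n)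
      have := nadd (y * z y) (y * z y)
      linarith
    refine (hle _).trans_lt (h2.trans_lt ?_)
    nlinarith
  · have e1 : C.T ((x - 1) * (w0 * ((1 + y) * (1 - y)⁻¹))) • (1 : D) = Z - F Z := by
      rw [← mul_assoc, ← hμ, cay_expand hy1]
      have e2 : F Z = -(Tm k C (e + (e * y + e * y) +
        (μ * (y * y * z y) + μ * (y * y * z y)))) := rfl
      have e3 : Z = Tm k C (m0 * (y + y)) := by
        rw [Tm_apply, hy, hZc, hRT]
      rw [e2, sub_neg_eq_add]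
      conv_rhs => enter [1]; rw [e3]
      rw [← map_add (Tm k C), ← Tm_apply (k := k)]
      have e4 : μ * (1 + (y + y) + (y * y * (1 - y)⁻¹ + y * y * (1 - y)⁻¹)) =
          m0 + (m0 * (y + y) + (e + (e * y + e * y) +
            (μ * (y * y * z y) + μ * (y * y * z y)))) := by
        change μ * (1 + (y + y) + (y * y * z y + y * y * z y)) = _
        rw [mul_add, mul_add, mul_one, mul_add μ (y * y * z y), hμe]
        simp only [mul_add, add_mul]
        abel
      rw [e4, map_add, Tm_apply m0, hT0, zero_smul, zero_add]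
    rw [e1]
    exact (hle _).trans_lt hZδ

end newton

end Vale.Agent.P011.H756
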