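import Vale.Agent.P011.H268.Csa
import Mathlib.LinearAlgebra.Matrix.ConjTranspose
import Mathlib.LinearAlgebra.Matrix.NonsingularInverse

/-!
# The hermitian matrix of a splitting of an algebra with involution

Two splittings of a central simple algebra over the same field are conjugate (Skolem-Noether), and
an involution of a split central simple algebra which is compatible with a nontrivial involution of
the field is the adjoint involution of a hermitian matrix.  All characteristics.
-/

open Module Matrix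
open scoped TensorProduct

namespace Vale.Agent.P011.H756

section

variable {K A L : Type*} [Field K] [Ring A] [Algebra K A] [Field L] [Algebra K L] {n : ℕ}

/-- the `L`-linear extension of a homomorphism to matrices -/
noncomputable def extM (f : A →ₐ[K] Matrix (Fin n) (Fin n) L) :
    L ⊗[K] A →ₐ[L] Matrix (Fin n) (Fin n) L :=
  Algebra.TensorProduct.lift (Algebra.ofId L _) f (fun c x => Algebra.commutes c (f x))

theorem extM_one_tmul (f : A →ₐ[K] Matrix (Fin n) (Fin n) L) (x : A) :
    extM f (1 ⊗ₜ x) = f x :=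
  (Algebra.TensorProduct.lift_tmul _ _ _ _ _).trans (by rw [map_one, one_mul])

variable [IsSimpleRing A] [Algebra.IsCentral K A]

theorem extM_bijective (hn : n ≠ 0) (hA : finrank K A = n ^ 2)
    (f : A →ₐ[K] Matrix (Fin n) (Fin n) L) : Function.Bijective (extM f) := by
  have : IsSimpleRing (L ⊗[K] A) := Vale.Agent.P011.H268.isSimpleRing_baseChange
  have hne : Nonempty (Fin n) := ⟨⟨0, Nat.pos_of_ne_zero hn⟩⟩
  have hfin : Module.Finite K A := Module.finite_of_finrank_pos (by
    rw [hA]; exact pow_pos (Nat.pos_of_ne_zero hn) 2)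
  have hinj : Function.Injective (extM f) := RingHom.injective (extM f).toRingHom
  refine ⟨hinj, ?_⟩
  have h1 : finrank L (L ⊗[K] A) = finrank L (Matrix (Fin n) (Fin n) L) := by
    rw [Module.finrank_baseChange, hA, Module.finrank_matrix, Fintype.card_fin,
      Module.finrank_self, mul_one, pow_two]
  exact (LinearMap.injective_iff_surjective_of_finrank_eq_finrank
    (f := (extM f).toLinearMap) h1).mp hinj

/-- a matrix commuting with the image of a splitting is a scalar -/
theorem scalar_of_comm (hn : n ≠ 0) (hA : finrank K A = n ^ 2)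
    (f : A →ₐ[K] Matrix (Fin n) (Fin n) L) {X : Matrix (Fin n) (Fin n) L}
    (hX : ∀ x, f x * X = X * f x) : ∃ c : L, X = c • (1 : Matrix (Fin n) (Fin n) L) := by
  have h1 : ∀ Y : Matrix (Fin n) (Fin n) L, Y * X = X * Y := by
    intro Y
    obtain ⟨y, rfl⟩ := (extM_bijective hn hA f).2 Y
    induction y with
    | zero => rw [map_zero, zero_mul, mul_zero]
    | add a b ha hb => rw [map_add, add_mul, mul_add, ha, hb]
    | tmul a b =>
      have h2 : extM f (a ⊗ₜ b) = a • f b := by
        rw [← extM_one_tmul f b, ← map_smul, TensorProduct.smul_tmul', smul_eq_mul, mul_one]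
      rw [h2, smul_mul_assoc, mul_smul_comm, hX]
  have h2 : X ∈ Set.center (Matrix (Fin n) (Fin n) L) := by
    rw [Semigroup.mem_center_iff]
    exact h1
  rw [Matrix.center_eq_range] at h2
  obtain ⟨c, hc⟩ := h2
  refine ⟨c, ?_⟩
  rw [← hc, Matrix.smul_one_eq_diagonal]
  rfl

/-- Two splittings over the same field are conjugate. -/
theorem skolem (hn : n ≠ 0) (hA : finrank K A = n ^ 2)
    (f g : A →ₐ[K] Matrix (Fin n) (Fin n) L) :
    ∃ S T : Matrix (Fin n) (Fin n) L, S * T = 1 ∧ T * S = 1 ∧ ∀ x, g x * S = S * f x := by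
  let F := AlgEquiv.ofBijective _ (extM_bijective hn hA f)
  let G := AlgEquiv.ofBijective _ (extM_bijective hn hA g)
  let Φ : End L (Fin n → L) ≃ₐ[L] End L (Fin n → L) :=
    (Matrix.toLinAlgEquiv' (n := Fin n) (R := L)).symm.trans ((F.symm.trans G).trans
      (Matrix.toLinAlgEquiv' (n := Fin n) (R := L)))
  obtain ⟨T, hT⟩ := AlgEquiv.eq_linearEquivConjAlgEquiv Φ
  refine ⟨LinearMap.toMatrix' T.toLinearMap, LinearMap.toMatrix' T.symm.toLinearMap, ?_, ?_, ?_⟩
  · rw [← LinearMap.toMatrix'_comp]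
    simp
  · rw [← LinearMap.toMatrix'_comp]
    simp
  · intro x
    have hF : F (1 ⊗ₜ x) = f x := by
      rw [AlgEquiv.ofBijective_apply]
      exact extM_one_tmul f x
    have hG : G (1 ⊗ₜ x) = g x := by
      rw [AlgEquiv.ofBijective_apply]
      exact extM_one_tmul g x
    have h1 : Φ (Matrix.toLin' (f x)) = Matrix.toLin' (g x) := by
      change (Matrix.toLinAlgEquiv' (n := Fin n) (R := L)) (G (F.symm
        ((Matrix.toLinAlgEquiv' (n := Fin n) (R := L)).symm (Matrix.toLin' (f x))))) = _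
      have h2 : (Matrix.toLinAlgEquiv' (n := Fin n) (R := L)).symm (Matrix.toLin' (f x)) = f x :=
        (Matrix.toLinAlgEquiv' (n := Fin n) (R := L)).symm_apply_apply (f x)
      rw [h2, ← hF, AlgEquiv.symm_apply_apply, hG]
      rfl
    rw [hT] at h1
    have h3 : (Matrix.toLin' (g x)) ∘ₗ T.toLinearMap = T.toLinearMap ∘ₗ Matrix.toLin' (f x) := by
      rw [← h1]
      ext v i
      simp [LinearEquiv.conjAlgEquiv_apply]
    have h4 := congrArg LinearMap.toMatrix' h3
    rw [LinearMap.toMatrix'_comp, LinearMap.toMatrix'_comp, LinearMap.toMatrix'_toLin',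
      LinearMap.toMatrix'_toLin'] at h4
    exact h4

end

/-- Hilbert's theorem 90 for a nontrivial involution of a field. -/
theorem exists_ninety {L : Type*} [Field L] [StarRing L] (hne : ∃ x : L, star x ≠ x) {c : L}
    (hc : star c * c = 1) : ∃ t : L, t ≠ 0 ∧ star t * c = t := by
  by_cases h : (1 : L) + c = 0
  · obtain ⟨y, hy⟩ := hne
    have hc' : c = -1 := by linear_combination h
    refine ⟨y - star y, fun h0 => hy (sub_eq_zero.mp h0).symm, ?_⟩
    rw [hc', star_sub, star_star]
    ring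
  · refine ⟨1 + c, h, ?_⟩
    rw [star_add, star_one, add_mul, one_mul, hc, add_comm]

/-- The hermitian matrix of a splitting. -/
theorem exists_herm {K A L : Type*} [Field K] [StarRing K] [Ring A] [StarRing A] [Algebra K A]
    [StarModule K A] [IsSimpleRing A] [Algebra.IsCentral K A] {n : ℕ} (hn : n ≠ 0)
    (hA : finrank K A = n ^ 2) [Field L] [StarRing L] (hne : ∃ x : L, star x ≠ x) (φ : K →+* L)
    (hφ : ∀ x, φ (star x) = star (φ x)) (f : A →+* Matrix (Fin n) (Fin n) L)
    (hf : ∀ c : K, f (algebraMap K A c) = algebraMap L _ (φ c)) :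
    ∃ H : Matrix (Fin n) (Fin n) L, Hᴴ = H ∧ H.det ≠ 0 ∧
      ∀ x, f (star x) * H = H * (f x)ᴴ := by
  let _ : Algebra K L := φ.toAlgebra
  have hkm : ∀ c : K, algebraMap K (Matrix (Fin n) (Fin n) L) c =
      algebraMap L (Matrix (Fin n) (Fin n) L) (φ c) := fun c => rfl
  let f1 : A →ₐ[K] Matrix (Fin n) (Fin n) L := { f with
    commutes' := fun c => by
      rw [hkm]
      exact hf c }
  have hf1 : ∀ x, f1 x = f x := fun x => rfl
  let g : A →ₐ[K] Matrix (Fin n) (Fin n) L :=
    { toFun := fun x => (f (star x))ᴴ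
      map_one' := by rw [star_one, map_one, Matrix.conjTranspose_one]
      map_zero' := by rw [star_zero, map_zero, Matrix.conjTranspose_zero]
      map_add' := fun x y => by rw [star_add, map_add, Matrix.conjTranspose_add]
      map_mul' := fun x y => by rw [star_mul, map_mul, Matrix.conjTranspose_mul]
      commutes' := fun c => by
        rw [← algebraMap_star_comm, hf, hkm, hφ, Algebra.algebraMap_eq_smul_one,
          Matrix.conjTranspose_smul, Matrix.conjTranspose_one, star_star,
          Algebra.algebraMap_eq_smul_one] }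
  have hg : ∀ x, g x = (f (star x))ᴴ := fun x => rfl
  obtain ⟨P, Q, hPQ, hQP, hPf⟩ := skolem hn hA f1 g
  -- `A0 = Qᴴ`
  have hP1 : Pᴴ * Qᴴ = 1 := by rw [← Matrix.conjTranspose_mul, hQP, Matrix.conjTranspose_one]
  have hP2 : Qᴴ * Pᴴ = 1 := by rw [← Matrix.conjTranspose_mul, hPQ, Matrix.conjTranspose_one]
  have hA0 : ∀ x, f (star x) * Qᴴ = Qᴴ * (f x)ᴴ := by
    intro x
    have h1 := hPf x
    rw [hg, hf1] at h1
    have h2 := congrArg Matrix.conjTranspose h1
    rw [Matrix.conjTranspose_mul, Matrix.conjTranspose_mul, Matrix.conjTranspose_conjTranspose]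
      at h2
    calc f (star x) * Qᴴ = Qᴴ * (Pᴴ * f (star x)) * Qᴴ := by
          rw [← mul_assoc Qᴴ, hP2, one_mul]
      _ = Qᴴ * ((f x)ᴴ * Pᴴ) * Qᴴ := by rw [h2]
      _ = _ := by rw [mul_assoc, mul_assoc, hP1, mul_one]
  obtain ⟨A0, hA0d⟩ : ∃ A0 : Matrix (Fin n) (Fin n) L, A0 = Qᴴ := ⟨_, rfl⟩
  rw [← hA0d] at hP1 hP2 hA0
  have hA0' : ∀ x, f (star x) * A0ᴴ = A0ᴴ * (f x)ᴴ := by
    intro x
    have h1 := congrArg Matrix.conjTranspose (hA0 (star x))
    rw [star_star, Matrix.conjTranspose_mul, Matrix.conjTranspose_mul,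
      Matrix.conjTranspose_conjTranspose] at h1
    exact h1.symm
  -- a combination which is invertible and hermitian
  obtain ⟨c, hc⟩ : ∃ c : L, A0ᴴ = c • A0 := by
    have h1 : ∀ x, f1 x * (A0ᴴ * Pᴴ) = (A0ᴴ * Pᴴ) * f1 x := by
      intro x
      rw [hf1]
      have h2 := hA0' (star x)
      rw [star_star] at h2
      have h3 := hA0 (star x)
      rw [star_star] at h3
      have h4 : Pᴴ * f x = (f (star x))ᴴ * Pᴴ := by
        calc Pᴴ * f x = Pᴴ * (f x * A0) * Pᴴ := by
              rw [mul_assoc, mul_assoc, hP2, mul_one]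
          _ = _ := by rw [h3, ← mul_assoc, hP1, one_mul]
      rw [← mul_assoc, h2, mul_assoc, ← h4, mul_assoc]
    obtain ⟨c, hc⟩ := scalar_of_comm hn hA f1 h1
    refine ⟨c, ?_⟩
    calc A0ᴴ = A0ᴴ * (Pᴴ * A0) := by rw [hP1, mul_one]
      _ = (A0ᴴ * Pᴴ) * A0 := by rw [mul_assoc]
      _ = _ := by rw [hc, smul_mul_assoc, one_mul]
  have hne' : Nonempty (Fin n) := ⟨⟨0, Nat.pos_of_ne_zero hn⟩⟩
  have hA00 : A0 ≠ 0 := by
    intro h0
    rw [h0, zero_mul] at hP2
    exact zero_ne_one hP2
  have hcc : star c * c = 1 := by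
    have h1 := congrArg Matrix.conjTranspose hc
    rw [Matrix.conjTranspose_conjTranspose, Matrix.conjTranspose_smul, hc, smul_smul] at h1
    have h2 : (star c * c - 1) • A0 = 0 := by rw [sub_smul, one_smul, ← h1, sub_self]
    rcases smul_eq_zero.mp h2 with h3 | h3
    · exact sub_eq_zero.mp h3
    · exact absurd h3 hA00
  obtain ⟨t, ht0, ht⟩ := exists_ninety hne hcc
  refine ⟨t • A0, ?_, ?_, ?_⟩
  · rw [Matrix.conjTranspose_smul, hc, smul_smul, ht]
  · rw [Matrix.det_smul]
    refine mul_ne_zero (pow_ne_zero _ ht0) ?_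
    intro h0
    have h1 := congrArg Matrix.det hP2
    rw [Matrix.det_mul, h0, zero_mul, Matrix.det_one] at h1
    exact zero_ne_one h1
  · intro x
    rw [mul_smul_comm, hA0, smul_mul_assoc]

end Vale.Agent.P011.H756
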