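import Vale.Agent.P011.H756.ReachG
import Vale.Agent.P011.H339.First

/-!
**Reach, over any field.**
-/

open Module Filter Topology

set_option linter.unusedSectionVars false
set_option linter.unusedVariables false

namespace Vale.Agent.P011.H756

open Vale.Agent.P011.H182 Vale.Agent.P011.H775 Vale.Agent.P011.H948 Vale.Agent.P011.H748
  Vale.Agent.P011.H3

variable {k K D : Type} [Field k] [Field K] [StarRing K] [DivisionRing D] [StarRing D]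
  [Algebra k K] [Algebra k D] [Algebra K D] [IsScalarTower k K D]
  {N : ℕ} {ι : Type}

theorem nu_of_tendsto {B : Basis (Fin N) k D} {a : AbsoluteValue k ℝ} {ω : Filter ℕ} {f : ℕ → D}
    (h : Tendsto (fun j => na B a (f j)) ω (𝓝 0)) : H339.Nu B a ω f :=
  fun η hη => h.eventually (gt_mem_nhds hη)

/-- **Reach**, from the first step at each place. -/
theorem reach_of_first {ab : ι → AbsoluteValue k ℝ} {C : Cub K D} (h : SCub C)
    (hk : ∀ c : k, star (algebraMap k K c) = algebraMap k K c) (h2 : (2 : k) ≠ 0) [Infinite k]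
    {s : K} (hs : star s = -s) (hs0 : s ≠ 0)
    (hfix : ∀ c : K, star c = c → ∃ e : k, algebraMap k K e = c)
    (B : Basis (Fin N) k D) {x u : D} (hu : u * star u = 1) (hT : C.T ((x - 1) * u) = 0)
    {P : Set ι} (hP : P.Finite) {V0 : Set ι} {Good : ι → D → Prop}
    (hinv : ∀ v ∈ V0, ∀ (w : D) (l : K), l * star l = 1 → Good v w → Good v (l • w))
    (line : ∀ u' : D, u' * star u' = 1 → C.T ((x - 1) * u') = 0 → ∀ ξ : ι → D,
      (∀ p ∈ P, star (ξ p) = ξ p ∧ be C ((x - 1) * u') (ξ p) ≠ 0) → ∀ ε : ℝ, 0 < ε →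
      ∃ w : D, w * star w = 1 ∧ C.T ((x - 1) * w) = 0 ∧
        (∀ p ∈ P, na B (ab p) (w - u' * star (be C ((x - 1) * u') (ξ p)) *
          (be C ((x - 1) * u') (ξ p))⁻¹) < ε) ∧
        ∀ v ∈ V0, v ∉ P → Good v u' → Good v w)
    (K1 : ∀ l : ι → K, (∀ p ∈ P, l p * star (l p) = 1) → ∀ ε : ℝ, 0 < ε →
      ∃ c : K, c * star c = 1 ∧ ∀ p ∈ P, nK B (ab p) (c - l p) < ε)
    (w : ι → ℕ → D)
    (ht : ∀ p ∈ P, ∃ (κ : Type) (_ : Fintype κ) (b : κ → K → ℝ), Comps B (ab p) b ∧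
      ∀ ω : Filter ℕ, ω.NeBot → ω ≤ atTop → Tgt C B (ab p) ω x b (w p))
    (first : ∀ p ∈ P, ∀ (κ : Type) (_ : Fintype κ) (b : κ → K → ℝ), Comps B (ab p) b →
      Tgt C B (ab p) (hyperfilter ℕ) x b (w p) →
      ∃ ξ : D, star ξ = ξ ∧ be C ((x - 1) * u) ξ ≠ 0 ∧ ∃ γ : ℝ, 0 < γ ∧
      ∀ u1 : D, u1 * star u1 = 1 →
        na B (ab p) (u1 - u * star (be C ((x - 1) * u) ξ) * (be C ((x - 1) * u) ξ)⁻¹) < γ →
        (∀ᶠ j in (hyperfilter ℕ : Filter ℕ), C.T (w p j * (x - 1) * w p j * u1⁻¹) ≠ 0) ∧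
        H339.Bd B (ab p) (hyperfilter ℕ : Filter ℕ)
          fun j => (C.T (w p j * (x - 1) * w p j * u1⁻¹))⁻¹ • (1 : D))
    {ε : ℝ} (hε : 0 < ε) (J : ℕ) :
    ∃ w1 : D, w1 * star w1 = 1 ∧ C.T ((x - 1) * w1) = 0 ∧
      (∀ p ∈ P, ∃ j, J ≤ j ∧ na B (ab p) (w1 - w p j) < ε) ∧
      ∀ v ∈ V0, v ∉ P → Good v u → Good v w1 := by
  have h2K : (2 : K) ≠ 0 := by
    have := (_root_.map_ne_zero (algebraMap k K)).2 h2
    rwa [map_ofNat] at this
  have hst : ∀ (c : k) (x : D), star (c • x) = c • star x := by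
    intro c x
    rw [← algebraMap_smul K c x, h.smul, hk, algebraMap_smul]
  obtain ⟨μ, hμ, hμ1⟩ := H339.exists_mu4 h2K hs hs0 hk
  have hω : (hyperfilter ℕ : Filter ℕ) ≤ atTop := by
    rw [← Nat.cofinite_eq_atTop]
    exact hyperfilter_le_cofinite
  refine reach_gen B h2K hst h.smul h.N hs hs0 hfix hμ hμ1 hu hT hP hinv line K1
    (ω := (hyperfilter ℕ : Filter ℕ)) hω w (fun p hp => ?_) (fun p hp => ?_) hε J
  · obtain ⟨κ, _, b, hb, h3⟩ := ht p hp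
    have h4 := h3 _ inferInstance hω
    obtain ⟨R, hR⟩ := h4.bdd
    refine ⟨H339.Bd.of_le hR, nu_of_tendsto h4.unit, nu_of_tendsto ?_⟩
    simp only [← Algebra.algebraMap_eq_smul_one]
    exact h4.tr
  · obtain ⟨κ, hκ, b, hb, h3⟩ := ht p hp
    obtain ⟨ξ, hξ, hbe, γ, hγ, h5⟩ := first p hp κ hκ b hb (h3 _ inferInstance hω)
    refine ⟨ξ, hξ, hbe, γ, hγ, fun u1 hu1 _ hn => ?_⟩
    obtain ⟨h6, h7⟩ := h5 u1 hu1 hn
    refine ⟨_, h7, H339.AE.of_eq ?_⟩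
    filter_upwards [h6] with j hj
    rw [smul_mul_smul_comm, mul_inv_cancel₀ hj, one_mul, one_smul]

/-- **Reach, over any field**, from the line step and weak approximation for the elements of norm
one. -/
theorem reach {ab : ι → AbsoluteValue k ℝ} {C : Cub K D} (h : SCub C)
    (hk : ∀ c : k, star (algebraMap k K c) = algebraMap k K c) (h2 : (2 : k) ≠ 0) [Infinite k]
    {s : K} (hs : star s = -s) (hs0 : s ≠ 0)
    (hfix : ∀ c : K, star c = c → ∃ e : k, algebraMap k K e = c)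
    (B : Basis (Fin N) k D) {x u : D} (hx : x * star x = 1) (hu : u * star u = 1)
    (hT : C.T ((x - 1) * u) = 0)
    (hnd : ∀ e : K, (x - 1) * u ≠ e • star ((x - 1) * u))
    (hND : ∃ (m : ℕ) (ξ t : Fin m → D), (∀ i, star (ξ i) = ξ i) ∧
      ∀ Q : D, ∃ e : K, Q = e • star ((x - 1) * u) +
        ∑ i, Rf C (star ((x - 1) * u)) Q (ξ i) • t i)
    (h8 : ∃ ξ : D, star ξ = ξ ∧ C.T ((x - 1) * u * ξ) = 0 ∧ C.T ((x - 1) * u * C.adj ξ) ≠ 0)
    {P : Set ι} (hP : P.Finite) {V0 : Set ι} {Good : ι → D → Prop}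
    (hinv : ∀ v ∈ V0, ∀ (w : D) (l : K), l * star l = 1 → Good v w → Good v (l • w))
    (line : ∀ u' : D, u' * star u' = 1 → C.T ((x - 1) * u') = 0 → ∀ ξ : ι → D,
      (∀ p ∈ P, star (ξ p) = ξ p ∧ be C ((x - 1) * u') (ξ p) ≠ 0) → ∀ ε : ℝ, 0 < ε →
      ∃ w : D, w * star w = 1 ∧ C.T ((x - 1) * w) = 0 ∧
        (∀ p ∈ P, na B (ab p) (w - u' * star (be C ((x - 1) * u') (ξ p)) *
          (be C ((x - 1) * u') (ξ p))⁻¹) < ε) ∧
        ∀ v ∈ V0, v ∉ P → Good v u' → Good v w)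
    (K1 : ∀ l : ι → K, (∀ p ∈ P, l p * star (l p) = 1) → ∀ ε : ℝ, 0 < ε →
      ∃ c : K, c * star c = 1 ∧ ∀ p ∈ P, nK B (ab p) (c - l p) < ε)
    (w : ι → ℕ → D)
    (ht : ∀ p ∈ P, ∃ (κ : Type) (_ : Fintype κ) (b : κ → K → ℝ), Comps B (ab p) b ∧
      ∀ ω : Filter ℕ, ω.NeBot → ω ≤ atTop → Tgt C B (ab p) ω x b (w p))
    {ε : ℝ} (hε : 0 < ε) (J : ℕ) :
    ∃ w1 : D, w1 * star w1 = 1 ∧ C.T ((x - 1) * w1) = 0 ∧
      (∀ p ∈ P, ∃ j, J ≤ j ∧ na B (ab p) (w1 - w p j) < ε) ∧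
      ∀ v ∈ V0, v ∉ P → Good v u → Good v w1 := by
  have h2K : (2 : K) ≠ 0 := by
    have := (_root_.map_ne_zero (algebraMap k K)).2 h2
    rwa [map_ofNat] at this
  exact reach_of_first h hk h2 hs hs0 hfix B hu hT hP hinv line K1 w ht
    (fun p _ κ _ b hb ht' => H339.first_step h hk h2K hb hx hu hnd hND h8 ht') hε J

end Vale.Agent.P011.H756
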