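import Vale.Agent.P011.H748.N4Curve
import Vale.Agent.P011.H929.Cts
import Vale.Agent.P011.H756.N0

/-!
**The line step, over any field with weak approximation.** From one solution `u` of
`u * star u = 1`, `T ((x - 1) u) = 0` one gets solutions of the form `u * star m * m⁻¹`,
`m = T (z ξ^#) + T (z ξ) ξ`, near prescribed ones of this form at finitely many places, and good at
all other places at which `u` is good.
-/

open Module

set_option linter.unusedSectionVars false
set_option linter.unusedVariables false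

namespace Vale.Agent.P011.H756

open Vale.Agent.P011.H182 Vale.Agent.P011.H775 Vale.Agent.P011.H929 Vale.Agent.P011.H948
  Vale.Agent.P011.H748

section cont

variable {k K D : Type} [Field k] [Field K] [StarRing K] [DivisionRing D] [StarRing D]
  [Algebra k K] [Algebra k D] [Algebra K D] [IsScalarTower k K D] {C : Cub K D} {N : ℕ}
  {B : Basis (Fin N) k D} {a : AbsoluteValue k ℝ} {X0 w0 : D}

theorem two_S' (x : D) : 2 * C.S x = C.T x * C.T x - C.T (x * x) := by
  have h1 := congrArg C.T (C.adj_eq x)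
  rw [map_add, map_sub, map_smul, map_smul, C.T_one, smul_eq_mul, smul_eq_mul] at h1
  have h2 : C.T (C.adj x) = C.S x := rfl
  rw [h2] at h1
  linear_combination -h1

theorem adj_formula' (h2 : (2 : k) ≠ 0) (x : D) : C.adj x =
    x * x - Tm k C x * x + (2⁻¹ : k) • (Tm k C x * Tm k C x - Tm k C (x * x)) := by
  have h2K : (2 : K) ≠ 0 := by
    have := (_root_.map_ne_zero (algebraMap k K)).2 h2
    rwa [map_ofNat] at this
  rw [C.adj_eq, Tm_apply, Tm_apply, smul_one_mul, smul_mul_smul_comm, one_mul, ← sub_smul,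
    ← two_S', ← algebraMap_smul K (2⁻¹ : k), smul_smul, map_inv₀, map_ofNat,
    inv_mul_cancel_left₀ h2K]

theorem cts_adj (h2 : (2 : k) ≠ 0) {f : D → D → D} (hf : Cts B a X0 w0 f) :
    Cts B a X0 w0 fun X w => C.adj (f X w) := by
  have h1 := (hf.mul hf).sub ((hf.lin (Tm k C)).mul hf)
  have h2' := ((hf.lin (Tm k C)).mul (hf.lin (Tm k C))).sub ((hf.mul hf).lin (Tm k C))
  have h3 := h1.add (h2'.lin ((2⁻¹ : k) • LinearMap.id))
  have e : (fun X w => C.adj (f X w)) = fun X w => f X w * f X w - Tm k C (f X w) * f X w +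
      ((2⁻¹ : k) • LinearMap.id (R := k) (M := D)) (Tm k C (f X w) * Tm k C (f X w) -
        Tm k C (f X w * f X w)) := by
    funext X w
    rw [adj_formula' h2]
    rfl
  rw [e]
  exact h3

theorem cts_star (hst : ∀ (c : k) (x : D), star (c • x) = c • star x) {f : D → D → D}
    (hf : Cts B a X0 w0 f) : Cts B a X0 w0 fun X w => star (f X w) := by
  let σ : D →ₗ[k] D := { toFun := star, map_add' := star_add, map_smul' := hst }
  exact hf.lin σ

theorem cts_inv {f : D → D → D} (hf : Cts B a X0 w0 f) (h0 : f X0 w0 ≠ 0) :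
    Cts B a X0 w0 fun X w => (f X w)⁻¹ := by
  intro η hη
  obtain ⟨c1, hc1, hm⟩ := na_mul B a
  obtain ⟨c, hc⟩ : ∃ c, c = na B a (f X0 w0)⁻¹ := ⟨_, rfl⟩
  have hc0 : 0 < c := by rw [hc]; exact na_pos B a (inv_ne_zero h0)
  have hn0 : 0 < na B a (f X0 w0) := na_pos B a h0
  obtain ⟨q, hq⟩ : ∃ q : ℝ, q = c1 * c1 * c := ⟨_, rfl⟩
  have hq0 : 0 < q := by rw [hq]; positivity
  obtain ⟨δ, hδ, hf⟩ := hf (min (na B a (f X0 w0)) (min (1 / (2 * q)) (η / (4 * q * c))))
    (lt_min hn0 (lt_min (by positivity) (by positivity)))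
  refine ⟨δ, hδ, fun X w hX hw => ?_⟩
  have h1 := hf X w hX hw
  have h2 := h1.trans_le (min_le_left _ _)
  have h3 := h1.trans_le ((min_le_right _ _).trans (min_le_left _ _))
  have h4 := h1.trans_le ((min_le_right _ _).trans (min_le_right _ _))
  have hne : f X w ≠ 0 := by
    intro h5
    rw [h5, zero_sub, na_neg] at h2
    exact lt_irrefl _ h2
  have e : (f X w)⁻¹ - (f X0 w0)⁻¹ = -((f X0 w0)⁻¹ * (f X w - f X0 w0) * (f X w)⁻¹) := by
    rw [mul_sub, sub_mul, inv_mul_cancel₀ h0, one_mul, mul_assoc, mul_inv_cancel₀ hne, mul_one]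
    abel
  obtain ⟨ε, hε⟩ : ∃ ε, ε = na B a (f X w - f X0 w0) := ⟨_, rfl⟩
  obtain ⟨E, hE⟩ : ∃ E, E = na B a ((f X w)⁻¹ - (f X0 w0)⁻¹) := ⟨_, rfl⟩
  have hε0 : 0 ≤ ε := by rw [hε]; exact na_nonneg _ _ _
  have hE0 : 0 ≤ E := by rw [hE]; exact na_nonneg _ _ _
  rw [← hε] at h3 h4
  have k1 : na B a (f X w)⁻¹ ≤ E + c := by
    have := na_add_le B a ((f X w)⁻¹ - (f X0 w0)⁻¹) (f X0 w0)⁻¹
    rwa [sub_add_cancel, ← hE, ← hc] at this
  have k2 : E ≤ q * ε * (E + c) := by
    have k3 := hm ((f X0 w0)⁻¹ * (f X w - f X0 w0)) (f X w)⁻¹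
    have k4 := hm (f X0 w0)⁻¹ (f X w - f X0 w0)
    rw [← hc, ← hε] at k4
    rw [← na_neg, ← e, ← hE] at k3
    refine k3.trans ?_
    have k5 : c1 * na B a ((f X0 w0)⁻¹ * (f X w - f X0 w0)) ≤ q * ε := by
      rw [hq]
      nlinarith
    exact mul_le_mul k5 k1 (na_nonneg _ _ _) (by positivity)
  rw [lt_div_iff₀ (by positivity)] at h3 h4
  rw [← hE]
  have k6 : q * ε ≤ 1 / 2 := by linarith
  have k7 : E ≤ 2 * (q * ε * c) := by nlinarith
  have k8 : ε * (4 * q * c) = 2 * (2 * (q * ε * c)) := by ring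
  rw [k8] at h4
  have k9 : 0 ≤ q * ε * c := by positivity
  linarith

theorem cts_be (h2 : (2 : k) ≠ 0) (z : D) {f : D → D → D} (hf : Cts B a X0 w0 f) :
    Cts B a X0 w0 fun X w => be C z (f X w) := by
  have h1 := (((Cts.const z).mul (cts_adj (C := C) h2 hf)).lin (Tm k C)).add
    ((((Cts.const z).mul hf).lin (Tm k C)).mul hf)
  have e : (fun X w => be C z (f X w)) = fun X w => Tm k C (z * C.adj (f X w)) +
      Tm k C (z * f X w) * f X w := by
    funext X w
    rw [be, Tm_apply, Tm_apply, smul_mul_assoc, one_mul]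
  rw [e]
  exact h1

/-- Continuity of the parametrisation. -/
theorem pt_near (h2 : (2 : k) ≠ 0) (hst : ∀ (c : k) (x : D), star (c • x) = c • star x)
    (B : Basis (Fin N) k D) (a : AbsoluteValue k ℝ) (z u : D) {e : D} (h0 : be C z e ≠ 0)
    {ε : ℝ} (hε : 0 < ε) : ∃ δ : ℝ, 0 < δ ∧ ∀ y : D, na B a (y - e) < δ → be C z y ≠ 0 ∧
      na B a (u * star (be C z y) * (be C z y)⁻¹ - u * star (be C z e) * (be C z e)⁻¹) < ε := by
  have hb : Cts B a e e fun X w => be C z X := cts_be h2 z Cts.fst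
  have h1 : Cts B a e e fun X w => u * star (be C z X) * (be C z X)⁻¹ :=
    ((Cts.const u).mul (cts_star hst hb)).mul (cts_inv hb h0)
  obtain ⟨δ1, hδ1, h1⟩ := h1 ε hε
  obtain ⟨δ2, hδ2, h3⟩ := hb _ (na_pos B a h0)
  refine ⟨min δ1 δ2, lt_min hδ1 hδ2, fun y hy => ⟨?_, ?_⟩⟩
  · intro h4
    have h5 : na B a (be C z y - be C z e) < na B a (be C z e) :=
      h3 y e (hy.trans_le (min_le_right _ _)) (by rwa [sub_self, na_zero])
    rw [h4, zero_sub, na_neg] at h5
    exact lt_irrefl _ h5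
  · exact h1 y e (hy.trans_le (min_le_left _ _)) (by rwa [sub_self, na_zero])

theorem be_smul_k (z : D) (t : k) (y : D) : be C z (t • y) = (t ^ 2) • be C z y := by
  rw [← algebraMap_smul K t y, be_smul, ← map_pow, algebraMap_smul]

/-- The limit of the parametrisation in the direction `b`. -/
theorem pt_infty (h : SCub C) (hk : ∀ c : k, star (algebraMap k K c) = algebraMap k K c)
    (h2 : (2 : k) ≠ 0)
    (B : Basis (Fin N) k D) (a : AbsoluteValue k ℝ) (z u : D) {b : D} (h8 : C.T (z * b) = 0)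
    (h8' : C.T (z * C.adj b) ≠ 0) (e : D) {ε : ℝ} (hε : 0 < ε) : ∃ M : ℝ, ∀ t : k, M < a t →
      be C z (e + t • b) ≠ 0 ∧
      na B a (u * star (be C z (e + t • b)) * (be C z (e + t • b))⁻¹ -
        (star (C.T (z * C.adj b)) * (C.T (z * C.adj b))⁻¹) • u) < ε := by
  have hst : ∀ (c : k) (x : D), star (c • x) = c • star x := by
    intro c x
    rw [← algebraMap_smul K c x, h.smul, hk, algebraMap_smul]
  have hbe : be C z b = C.T (z * C.adj b) • (1 : D) := by
    rw [be, h8, zero_smul, add_zero]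
  have hb0 : be C z b ≠ 0 := by
    rw [hbe]
    exact smul_ne_zero h8' one_ne_zero
  obtain ⟨δ, hδ, hd⟩ := pt_near h2 hst B a z u hb0 hε
  have he : u * star (be C z b) * (be C z b)⁻¹ =
      (star (C.T (z * C.adj b)) * (C.T (z * C.adj b))⁻¹) • u := by
    rw [hbe, h.smul, star_one]
    have h1 : (C.T (z * C.adj b) • (1 : D))⁻¹ = (C.T (z * C.adj b))⁻¹ • (1 : D) := by
      apply inv_eq_of_mul_eq_one_right
      rw [smul_mul_smul_comm, mul_inv_cancel₀ h8', one_mul, one_smul]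
    rw [h1, mul_smul_comm, mul_one, mul_smul_comm, mul_one, smul_smul, mul_comm]
  rw [he] at hd
  refine ⟨max 0 (na B a e / δ), fun t ht => ?_⟩
  have ht0 : 0 < a t := (le_max_left _ _).trans_lt ht
  have ht1 : na B a e / δ < a t := (le_max_right _ _).trans_lt ht
  have htne : t ≠ 0 := a.pos_iff.1 ht0
  have h1 : na B a ((b + t⁻¹ • e) - b) < δ := by
    rw [add_sub_cancel_left, na_smul, map_inv₀, inv_mul_lt_iff₀ ht0]
    rwa [div_lt_iff₀ hδ] at ht1
  obtain ⟨h3, h4⟩ := hd _ h1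
  have e1 : e + t • b = t • (b + t⁻¹ • e) := by
    rw [smul_add, smul_smul, mul_inv_cancel₀ htne, one_smul, add_comm]
  have ht2 : t ^ 2 ≠ 0 := pow_ne_zero _ htne
  have e2 : u * star (be C z (e + t • b)) * (be C z (e + t • b))⁻¹ =
      u * star (be C z (b + t⁻¹ • e)) * (be C z (b + t⁻¹ • e))⁻¹ := by
    rw [e1, be_smul_k, hst]
    have h5 : ((t ^ 2) • be C z (b + t⁻¹ • e))⁻¹ = (t ^ 2)⁻¹ • (be C z (b + t⁻¹ • e))⁻¹ := by
      apply inv_eq_of_mul_eq_one_right
      rw [smul_mul_smul_comm, mul_inv_cancel₀ ht2, mul_inv_cancel₀ h3, one_smul]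
    rw [h5, mul_smul_comm, mul_smul_comm, smul_mul_assoc, smul_smul, inv_mul_cancel₀ ht2,
      one_smul]
  refine ⟨?_, by rwa [e2]⟩
  rw [e1, be_smul_k]
  exact smul_ne_zero ht2 h3

end cont

section wa

variable {k : Type} [Field k] {ι : Type}

/-- Weak approximation for a family of absolute values. -/
def WA (ab : ι → AbsoluteValue k ℝ) : Prop :=
  ∀ P : Set ι, P.Finite → ∀ (c : ι → k) (ε : ℝ), 0 < ε → ∃ x : k, ∀ p ∈ P, ab p (x - c p) < ε

/-- The absolute values are not trivial. -/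
def NT (ab : ι → AbsoluteValue k ℝ) : Prop := ∀ i, ∃ x : k, x ≠ 0 ∧ ab i x < 1

theorem NT.small {ab : ι → AbsoluteValue k ℝ} (h : NT ab) (i : ι) {ε : ℝ} (hε : 0 < ε) :
    ∃ x : k, x ≠ 0 ∧ ab i x < ε := by
  obtain ⟨x, hx, h1⟩ := h i
  obtain ⟨n, hn⟩ := exists_pow_lt_of_lt_one hε h1
  exact ⟨x ^ n, pow_ne_zero _ hx, by rwa [map_pow]⟩

theorem NT.big {ab : ι → AbsoluteValue k ℝ} (h : NT ab) (i : ι) (M : ℝ) :
    ∃ x : k, M < ab i x := by
  obtain ⟨x, hx, h1⟩ := h.small i (show (0 : ℝ) < 1 / (|M| + 1) by positivity)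
  refine ⟨x⁻¹, ?_⟩
  have h0 := (ab i).pos hx
  rw [map_inv₀]
  rw [lt_div_iff₀ (by positivity)] at h1
  have h2 : |M| + 1 < (ab i x)⁻¹ := by
    rw [lt_inv_comm₀ (by positivity) h0, inv_eq_one_div, lt_div_iff₀ (by positivity)]
    exact h1
  linarith [le_abs_self M]

theorem exists_min {P : Set ι} (hP : P.Finite) (f : ι → ℝ) (hf : ∀ p ∈ P, 0 < f p) :
    ∃ δ : ℝ, 0 < δ ∧ ∀ p ∈ P, δ ≤ f p := by
  induction P, hP using Set.Finite.induction_on with
  | empty => exact ⟨1, one_pos, fun p hp => absurd hp (Set.notMem_empty p)⟩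
  | @insert b s _ _ ih =>
    obtain ⟨δ, hδ, h⟩ := ih fun p hp => hf p (Set.mem_insert_of_mem _ hp)
    refine ⟨min δ (f b), lt_min hδ (hf b (Set.mem_insert _ _)), fun p hp => ?_⟩
    rcases Set.mem_insert_iff.1 hp with rfl | hp
    · exact min_le_right _ _
    · exact (min_le_left _ _).trans (h p hp)

/-- Small elements outside a finite set. -/
theorem small_avoid {ab : ι → AbsoluteValue k ℝ} (hWA : WA ab) (hNT : NT ab) {P : Set ι}
    (hP : P.Finite) (hne : P.Nonempty) {F : Set k} (hF : F.Finite) {ε : ℝ} (hε : 0 < ε) :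
    ∃ r : k, r ∉ F ∧ ∀ p ∈ P, ab p r < ε := by
  classical
  obtain ⟨p0, hp0⟩ := hne
  obtain ⟨ρ, hρ, hρF⟩ := exists_min (hF.subset (Set.sdiff_subset (t := {0})) )
    (fun y => ab p0 y) (fun y hy => (ab p0).pos fun h => hy.2 h)
  obtain ⟨c, hc, hc1⟩ := hNT.small p0 (show (0 : ℝ) < min ρ ε / 2 by
    have := lt_min hρ hε
    linarith)
  have hc0 := (ab p0).pos hc
  obtain ⟨r, hr⟩ := hWA P hP (Function.update (fun _ => 0) p0 c) (min (ab p0 c / 2) ε)
    (lt_min (by linarith) hε)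
  have hr0 := hr p0 hp0
  rw [Function.update_self] at hr0
  have h1 := hr0.trans_le (min_le_left _ _)
  have h2 : ab p0 r < min ρ ε := by
    have h3 := (ab p0).add_le (r - c) c
    rw [sub_add_cancel] at h3
    linarith
  have h4 : r ≠ 0 := by
    rintro rfl
    rw [zero_sub, AbsoluteValue.map_neg] at h1
    linarith
  refine ⟨r, fun hrF => ?_, fun p hp => ?_⟩
  · have h5 := hρF r ⟨hrF, h4⟩
    have h6 := h2.trans_le (min_le_left _ _)
    linarith
  · by_cases hpp : p = p0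
    · rw [hpp]
      exact h2.trans_le (min_le_right _ _)
    · have h5 := hr p hp
      rw [Function.update_of_ne hpp, sub_zero] at h5
      exact h5.trans_le (min_le_right _ _)

end wa

section sym

variable {k D : Type} [Field k] [DivisionRing D] [StarRing D] [Algebra k D] {N : ℕ} {ι : Type}

/-- Weak approximation in the algebra. -/
theorem wa_D {ab : ι → AbsoluteValue k ℝ} (hWA : WA ab) (B : Basis (Fin N) k D) {P : Set ι}
    (hP : P.Finite) (ξ : ι → D) {ε : ℝ} (hε : 0 < ε) :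
    ∃ y : D, ∀ p ∈ P, na B (ab p) (y - ξ p) < ε := by
  choose x hx using fun i : Fin N => hWA P hP (fun p => B.repr (ξ p) i) (ε / (N + 1))
    (by positivity)
  refine ⟨∑ i, x i • B i, fun p hp => ?_⟩
  have h1 : na B (ab p) (∑ i, x i • B i - ξ p) ≤ N * (ε / (N + 1)) := by
    refine na_le_of_coord B (ab p) fun i => ?_
    have h2 := hx i p hp
    rw [map_sub, Finsupp.sub_apply, map_sum, Finsupp.finsetSum_apply]
    simp only [map_smul, Finsupp.smul_apply, Basis.repr_self, smul_eq_mul]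
    rw [Finset.sum_eq_single i (fun j _ hj => by
      rw [Finsupp.single_apply, if_neg hj, mul_zero]) (fun h => absurd (Finset.mem_univ _) h),
      Finsupp.single_apply, if_pos rfl, mul_one]
    exact h2.le
  refine h1.trans_lt ?_
  rw [← mul_div_assoc, div_lt_iff₀ (by positivity)]
  nlinarith

/-- Weak approximation in the symmetric elements. -/
theorem wa_sym {ab : ι → AbsoluteValue k ℝ} (hWA : WA ab) (h2 : (2 : k) ≠ 0)
    (hst : ∀ (c : k) (x : D), star (c • x) = c • star x) (B : Basis (Fin N) k D) {P : Set ι}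
    (hP : P.Finite) (ξ : ι → D) (hξ : ∀ p ∈ P, star (ξ p) = ξ p) {ε : ℝ} (hε : 0 < ε) :
    ∃ y : D, star y = y ∧ ∀ p ∈ P, na B (ab p) (y - ξ p) < ε := by
  let L : D →ₗ[k] D := { toFun := fun x => (2⁻¹ : k) • (x + star x),
                         map_add' := fun x y => by rw [star_add, ← smul_add]; congr 1; abel
                         map_smul' := fun c x => by
                           rw [hst, ← smul_add, smul_comm, RingHom.id_apply] }
  have hL : ∀ x, L x = (2⁻¹ : k) • (x + star x) := fun x => rfl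
  choose c hc hcL using fun p => na_linear B (ab p) L
  obtain ⟨δ, hδ, hδP⟩ := exists_min hP (fun p => ε / c p) fun p _ => div_pos hε (hc p)
  obtain ⟨y, hy⟩ := wa_D hWA B hP ξ hδ
  refine ⟨L y, ?_, fun p hp => ?_⟩
  · rw [hL, hst, star_add, star_star, add_comm]
  · have e : L (ξ p) = ξ p := by
      rw [hL, hξ p hp, ← two_smul k, smul_smul, inv_mul_cancel₀ h2, one_smul]
    have h1 := hcL p (y - ξ p)
    rw [map_sub, e] at h1
    refine h1.trans_lt ?_
    have h3 := (hy p hp).trans_le (hδP p hp)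
    rw [lt_div_iff₀ (hc p)] at h3
    linarith

end sym

section line

variable {k K D : Type} [Field k] [Field K] [StarRing K] [DivisionRing D] [StarRing D]
  [Algebra k K] [Algebra k D] [Algebra K D] [IsScalarTower k K D] {C : Cub K D} {N : ℕ} {ι : Type}

/-- **The line step.** -/
theorem line_step_gen {ab : ι → AbsoluteValue k ℝ} (hWA : WA ab) (hNT : NT ab) (h : SCub C)
    (hk : ∀ c : k, star (algebraMap k K c) = algebraMap k K c) (h20 : (2 : k) ≠ 0)
    (B : Basis (Fin N) k D) {x u b : D} (hu : u * star u = 1) (hT : C.T ((x - 1) * u) = 0)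
    (hb : star b = b) (h8 : C.T ((x - 1) * u * b) = 0) (h8' : C.T ((x - 1) * u * C.adj b) ≠ 0)
    {V0 : Set ι} {Good : ι → D → Prop}
    (hopen : ∀ v ∈ V0, ∀ w1 : D, w1 * star w1 = 1 → C.T ((x - 1) * w1) = 0 → Good v w1 →
      ∃ δ : ℝ, 0 < δ ∧ ∀ w : D, w * star w = 1 → C.T ((x - 1) * w) = 0 →
        na B (ab v) (w - w1) < δ → Good v w)
    (hinv : ∀ v ∈ V0, ∀ l : K, l * star l = 1 → Good v u → Good v (l • u))
    (hline : ∃ a : D, star a = a ∧ ∀ e : D, star e = e →
      {r : k | ¬ ∃ S : Set ι, S.Finite ∧ ∀ v ∈ V0, v ∉ S → ∀ t : k,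
        be C ((x - 1) * u) (e + r • (a - e) + t • b) ≠ 0 →
        Good v (u * star (be C ((x - 1) * u) (e + r • (a - e) + t • b)) *
          (be C ((x - 1) * u) (e + r • (a - e) + t • b))⁻¹)}.Finite)
    {P : Set ι} (hP : P.Finite) (ξ : ι → D)
    (hξ : ∀ p ∈ P, star (ξ p) = ξ p ∧ be C ((x - 1) * u) (ξ p) ≠ 0) {ε : ℝ} (hε : 0 < ε) :
    ∃ w : D, w * star w = 1 ∧ C.T ((x - 1) * w) = 0 ∧
      (∀ p ∈ P, na B (ab p) (w - u * star (be C ((x - 1) * u) (ξ p)) *
        (be C ((x - 1) * u) (ξ p))⁻¹) < ε) ∧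
      ∀ v ∈ V0, v ∉ P → Good v u → Good v w := by
  classical
  have hst : ∀ (c : k) (x : D), star (c • x) = c • star x := by
    intro c x
    rw [← algebraMap_smul K c x, h.smul, hk, algebraMap_smul]
  rcases P.eq_empty_or_nonempty with rfl | hPne
  · exact ⟨u, hu, hT, fun p hp => absurd hp (Set.notMem_empty p), fun v _ _ hv => hv⟩
  set z := (x - 1) * u with hz
  -- the neighbourhoods of the targets
  have hnb : ∀ p, ∃ δ : ℝ, 0 < δ ∧ (p ∈ P → ∀ y : D, na B (ab p) (y - ξ p) < δ → be C z y ≠ 0 ∧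
      na B (ab p) (u * star (be C z y) * (be C z y)⁻¹ -
        u * star (be C z (ξ p)) * (be C z (ξ p))⁻¹) < ε) := by
    intro p
    by_cases hp : p ∈ P
    · obtain ⟨δ, hδ, h1⟩ := pt_near h20 hst B (ab p) z u (hξ p hp).2 hε
      exact ⟨δ, hδ, fun _ => h1⟩
    · exact ⟨1, one_pos, fun h => absurd h hp⟩
  choose δ hδ hδP using hnb
  obtain ⟨δ0, hδ0, hδ0P⟩ := exists_min hP δ fun p _ => hδ p
  obtain ⟨a, ha, hline⟩ := hline
  obtain ⟨η, hη, hηP⟩ := wa_sym hWA h20 hst B hP ξ (fun p hp => (hξ p hp).1)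
    (show (0 : ℝ) < δ0 / 3 by linarith)
  -- the choice of the line
  obtain ⟨δ1, hδ1, hδ1P⟩ := exists_min hP (fun p => δ0 / 3 / (na B (ab p) (a - η) + 1))
    fun p _ => div_pos (by linarith) (by have := na_nonneg B (ab p) (a - η); linarith)
  obtain ⟨r, hrF, hrP⟩ := small_avoid hWA hNT hP hPne (hline η hη) hδ1
  rw [Set.mem_ofPred_eq, not_not] at hrF
  obtain ⟨S, hS, hSv⟩ := hrF
  set e1 := η + r • (a - η) with he1
  have he1s : star e1 = e1 := by rw [he1, star_add, hst, star_sub, hη, ha]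
  have hr2 : ∀ p ∈ P, na B (ab p) (e1 - η) < δ0 / 3 := by
    intro p hp
    rw [he1, add_sub_cancel_left, na_smul]
    have h1 := (hrP p hp).trans_le (hδ1P p hp)
    have h2 := na_nonneg B (ab p) (a - η)
    have h3 := (ab p).nonneg r
    rw [lt_div_iff₀ (by linarith)] at h1
    nlinarith
  -- the choice of the point on the line
  set l : K := star (C.T (z * C.adj b)) * (C.T (z * C.adj b))⁻¹ with hl
  have hl1 : l * star l = 1 := by
    have h8s : star (C.T (z * C.adj b)) ≠ 0 := fun h0 => h8' (star_eq_zero.1 h0)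
    rw [hl, star_mul', star_star, star_inv₀]
    field_simp
  have hlu : (l • u) * star (l • u) = 1 := by
    rw [h.smul, smul_mul_smul_comm, hu, hl1, one_smul]
  have hlT : C.T ((x - 1) * (l • u)) = 0 := by
    rw [mul_smul_comm, map_smul, ← hz, hT, smul_zero]
  have hM : ∀ v, ∃ M : ℝ, v ∈ V0 → Good v u → ∀ t : k, M < ab v t → ∀ w : D, w * star w = 1 →
      C.T ((x - 1) * w) = 0 →
      w = u * star (be C z (e1 + t • b)) * (be C z (e1 + t • b))⁻¹ → Good v w := by
    intro v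
    by_cases hv : v ∈ V0 ∧ Good v u
    · obtain ⟨δ2, hδ2, h1⟩ := hopen v hv.1 (l • u) hlu hlT (hinv v hv.1 l hl1 hv.2)
      obtain ⟨M, hM⟩ := pt_infty h hk h20 B (ab v) z u h8 h8' e1 hδ2
      refine ⟨M, fun _ _ t ht w hw hTw hwe => h1 w hw hTw ?_⟩
      rw [hwe]
      exact (hM t ht).2
    · exact ⟨0, fun h1 h2 => absurd ⟨h1, h2⟩ hv⟩
  choose M hM using hM
  choose T hTM using fun v => hNT.big v (M v + 1)
  obtain ⟨δ3, hδ3, hδ3P⟩ := exists_min hP (fun p => δ0 / 3 / (na B (ab p) b + 1))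
    fun p _ => div_pos (by linarith) (by have := na_nonneg B (ab p) b; linarith)
  obtain ⟨t, ht⟩ := hWA (P ∪ S) (hP.union hS) (fun v => if v ∈ P then 0 else T v) (min 1 δ3)
    (lt_min one_pos hδ3)
  have ht2 : ∀ p ∈ P, na B (ab p) (t • b) < δ0 / 3 := by
    intro p hp
    have h1 := ht p (Or.inl hp)
    rw [if_pos hp, sub_zero] at h1
    have h4 := (h1.trans_le (min_le_right _ _)).trans_le (hδ3P p hp)
    rw [na_smul]
    have h2 := na_nonneg B (ab p) b
    have h3 := (ab p).nonneg t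
    rw [lt_div_iff₀ (by linarith)] at h4
    nlinarith
  have hclose : ∀ p ∈ P, na B (ab p) ((e1 + t • b) - ξ p) < δ0 := by
    intro p hp
    have e : (e1 + t • b) - ξ p = (e1 - η) + ((η - ξ p) + t • b) := by abel
    rw [e]
    have h1 := na_add_le B (ab p) (e1 - η) ((η - ξ p) + t • b)
    have h2 := na_add_le B (ab p) (η - ξ p) (t • b)
    have h3 := hr2 p hp
    have h4 := hηP p hp
    have h5 := ht2 p hp
    linarith
  obtain ⟨p0, hp0⟩ := hPne
  have hbe : be C z (e1 + t • b) ≠ 0 :=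
    (hδP p0 hp0 _ ((hclose p0 hp0).trans_le (hδ0P p0 hp0))).1
  have hsym : star (e1 + t • b) = e1 + t • b := by rw [star_add, hst, he1s, hb]
  have hwu := pt_unitary h hu (comm_star_be h (z := z) hsym) hbe
  have hwT := pt_T h hT hsym hbe
  refine ⟨_, hwu, hwT, fun p hp => (hδP p hp _ ((hclose p hp).trans_le (hδ0P p hp))).2, ?_⟩
  intro v hv hvP hvu
  by_cases hvS : v ∈ S
  · refine hM v hv hvu t ?_ _ hwu hwT rfl
    have h1 := ht v (Or.inr hvS)
    rw [if_neg hvP] at h1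
    have h2 := h1.trans_le (min_le_left _ _)
    have h3 := (ab v).add_le (T v - t) t
    rw [sub_add_cancel, (ab v).map_sub] at h3
    have h4 := hTM v
    linarith
  · exact hSv v hv hvS t hbe

end line

end Vale.Agent.P011.H756
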