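import Vale.Agent.P011.H158.N4F
import Vale.Agent.P011.H756.LineG
import Vale.Agent.P011.H698.DensFF
import Vale.Agent.P011.H465.OpenF

/-!
**The line step over a global function field.**
-/

open Module

set_option linter.unusedSectionVars false
set_option linter.unusedVariables false

namespace Vale.Agent.P011.H756

open Vale.Agent.P011.H305 Vale.Agent.P011.H738 Vale.Agent.P011.H271 Vale.Agent.P011.H182
  Vale.Agent.P011.H775 Vale.Agent.P011.H948 Vale.Agent.P011.H929.FF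
open Vale.Agent.P011.H748 (be pt)

section places

variable {k : Type} [Field k]

theorem wa_place : WA fun v : Place k => v.abv := by
  intro P hP c ε hε
  obtain ⟨x, hx⟩ := H698.place_weak hP.toFinset (fun v => algebraMap k _ (c v)) hε
  refine ⟨x, fun p hp => ?_⟩
  have h1 := hx ⟨p, hP.mem_toFinset.2 hp⟩
  rwa [← map_sub, norm_alg] at h1

theorem nt_place : NT fun v : Place k => v.abv := by
  intro v
  obtain ⟨x, hx0, hx1⟩ := H698.place_nontrivial v
  rcases lt_or_gt_of_ne hx1 with h | h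
  · exact ⟨x, hx0, h⟩
  · refine ⟨x⁻¹, inv_ne_zero hx0, ?_⟩
    rw [map_inv₀]
    exact inv_lt_one_of_one_lt₀ h

end places

variable {k K D : Type} [Field k] [GFF k] [Field K] [StarRing K]
    [DivisionRing D] [StarRing D] [Algebra k K] [Algebra k D] [Algebra K D] [IsScalarTower k K D]
    {d : kˣ} {s : K} {N : ℕ}

/-- A solution of `T ((x - 1) w) = 0` is not central. -/
theorem not_range_of_T {C : Cub K D} {x w : D} (hx3 : C.T x ≠ 3) (hw : w ≠ 0)
    (hT : C.T ((x - 1) * w) = 0) : w ∉ Set.range (algebraMap K D) := by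
  rintro ⟨c, hc⟩
  have hc0 : c ≠ 0 := by
    rintro rfl
    exact hw (by rw [← hc, map_zero])
  rw [← hc, Algebra.algebraMap_eq_smul_one, mul_smul_comm, mul_one, map_smul, map_sub, C.T_one,
    smul_eq_mul] at hT
  exact hx3 (sub_eq_zero.mp ((mul_eq_zero.mp hT).resolve_left hc0))

theorem goodInt_smulF {B : Basis (Fin N) k D} {v : Place k} {x u : D} (c : K)
    (h : GoodInt B v u (x * u)) : GoodInt B v (c • u) (x * (c • u)) := by
  obtain ⟨g, y, e, h1, h2, h3, h4, h5⟩ := h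
  refine ⟨g, y, e, ?_, h2, h3, h4, h5⟩
  rw [mul_smul_comm, smul_mul_assoc, h1, mul_smul_comm]

/-- **The line step over a global function field.** -/
theorem line_stepF_of (hS : SetF k K D d s) (h3 : (3 : k) ≠ 0) (C : Cub K D)
    (h9 : finrank K D = 3 ^ 2) (B : Basis (Fin N) k D) {x u : D} (hx : x * star x = 1)
    (hxN : C.N x = 1) (hx3 : C.T x ≠ 3) (hu : u * star u = 1) (hT : C.T ((x - 1) * u) = 0)
    (hopen : ∀ (v : Place k) (w1 : D), w1 ∉ Set.range (algebraMap K D) →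
      GoodInt B v w1 (x * w1) → ∃ δ : ℝ, 0 < δ ∧ ∀ w : D,
        na B v.abv (w - w1) < δ → C.T (x * w) = C.T w → C.S (x * w) = C.S w →
        C.N (x * w) = C.N w → GoodInt B v w (x * w))
    {P : Set (Place k)} (hP : P.Finite) (ξ : Place k → D)
    (hξ : ∀ p ∈ P, star (ξ p) = ξ p ∧ be C ((x - 1) * u) (ξ p) ≠ 0) {ε : ℝ} (hε : 0 < ε) :
    ∃ w : D, w * star w = 1 ∧ C.T ((x - 1) * w) = 0 ∧
      (∀ p ∈ P, na B p.abv (w - u * star (be C ((x - 1) * u) (ξ p)) *
        (be C ((x - 1) * u) (ξ p))⁻¹) < ε) ∧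
      ∀ v ∉ P, (¬ ∃ α : v.comp, α ^ 2 = algebraMap k v.comp d) →
        GoodInt B v u (x * u) → GoodInt B v w (x * w) := by
  have _ := hS.fin
  have _ := hS.cen
  have h : SCub C := sCub_of C h9 hS.star_smul
  have hu0 : u ≠ 0 := h.ne_zero_of_unitary hu
  have huc := not_range_of_T hx3 hu0 hT
  have hx1 : x - 1 ≠ 0 := by
    intro h0
    apply hx3
    rw [sub_eq_zero.mp h0, C.T_one]
  obtain ⟨b, hb, h8, h8'⟩ := H158.N4.exists_dir hS h3 C h9 (mul_ne_zero hx1 hu0)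
  obtain ⟨a, ha, hfa⟩ := H158.N4.n4 hS h3 C h9 B hx hxN hu huc hT hb h8 h8'
  obtain ⟨w, hw, hwT, hwP, hwV⟩ := line_step_gen (wa_place (k := k)) nt_place h
    hS.star_algebraMap hS.two_ne B hu hT hb h8 h8'
    (V0 := {v : Place k | ¬ ∃ α : v.comp, α ^ 2 = algebraMap k v.comp d})
    (Good := fun v w => GoodInt B v w (x * w))
    (fun v _ w1 hw1 hTw1 hg => by
      obtain ⟨δ, hδ, h1⟩ := hopen v w1 (not_range_of_T hx3 (h.ne_zero_of_unitary hw1) hTw1) hg
      refine ⟨δ, hδ, fun w hw hTw hn => ?_⟩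
      obtain ⟨s1, s2, s3⟩ := h.same hx hxN hw hTw
      exact h1 w hn s1 s2 s3)
    (fun v _ l _ hg => goodInt_smulF l hg)
    ⟨a, ha, fun e he => (hfa e he).subset fun r hr hcon => hr (by
      obtain ⟨S, hS', hSv⟩ := hcon
      exact ⟨S, hS', fun v hv hvS t _ => (hSv v hvS hv t).2⟩)⟩ hP ξ hξ hε
  exact ⟨w, hw, hwT, hwP, fun v hvP hv hg => hwV v hv hvP hg⟩

/-- **The line step over a global function field.** -/
theorem line_stepF (hS : SetF k K D d s) (h3 : (3 : k) ≠ 0) (C : Cub K D)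
    (h9 : finrank K D = 3 ^ 2) (B : Basis (Fin N) k D) {x u : D} (hx : x * star x = 1)
    (hxN : C.N x = 1) (hx3 : C.T x ≠ 3) (hu : u * star u = 1) (hT : C.T ((x - 1) * u) = 0)
    {P : Set (Place k)} (hP : P.Finite) (ξ : Place k → D)
    (hξ : ∀ p ∈ P, star (ξ p) = ξ p ∧ be C ((x - 1) * u) (ξ p) ≠ 0) {ε : ℝ} (hε : 0 < ε) :
    ∃ w : D, w * star w = 1 ∧ C.T ((x - 1) * w) = 0 ∧
      (∀ p ∈ P, na B p.abv (w - u * star (be C ((x - 1) * u) (ξ p)) *
        (be C ((x - 1) * u) (ξ p))⁻¹) < ε) ∧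
      ∀ v ∉ P, (¬ ∃ α : v.comp, α ^ 2 = algebraMap k v.comp d) →
        GoodInt B v u (x * u) → GoodInt B v w (x * w) :=
  line_stepF_of hS h3 C h9 B hx hxN hx3 hu hT
    (fun v _ hw1 hg => H465.OpenF.goodInt_open hS h3 h9 C B v hw1 hg) hP ξ hξ hε

end Vale.Agent.P011.H756
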