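import Vale.Agent.P011.H339.N1c
import Vale.Agent.P011.H756.LineG
import Vale.Agent.P011.H3.Siz

/-!
**Two line steps: approximate solutions at finitely many places are approximated by a global
solution**, over any field. The local step (`step1`), the line step (`LINE`) and weak approximation
for the elements of norm one (`K1`) are hypotheses.
-/

open Module Filter

set_option linter.unusedSectionVars false
set_option linter.unusedVariables false

namespace Vale.Agent.P011.H756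

open Vale.Agent.P011.H182 Vale.Agent.P011.H775 Vale.Agent.P011.H948 Vale.Agent.P011.H748

variable {k K D : Type} [Field k] [Field K] [StarRing K] [DivisionRing D] [StarRing D]
  [Algebra k K] [Algebra k D] [Algebra K D] [IsScalarTower k K D]
  {N : ℕ} {ι : Type}

/-- The estimate of the last step. -/
theorem scale_near (B : Basis (Fin N) k D) (a : AbsoluteValue k ℝ)
    (hk : ∀ (c : k) (x : D), star (c • x) = c • star x)
    (hsm : ∀ (c : K) (x : D), star (c • x) = star c • star x) {M ε : ℝ} (hM : 0 < M)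
    (hε : 0 < ε) : ∃ e : ℝ, 0 < e ∧ ∀ (w y w2 : D) (m c : K), m * star m = 1 →
      na B a (m • (1 : D)) ≤ M → na B a w ≤ M → na B a (y - m • w) < e → na B a (w2 - y) < e →
      H3.nK B a (c - star m) < e → na B a (c • w2 - w) < ε := by
  obtain ⟨C1, hC1, hm, hst⟩ := na_const B a hk
  have hp1 : 0 < 8 * (C1 * (C1 * M)) := by positivity
  have hp2 : 0 < 4 * (C1 * (1 + C1 * M * M)) := by positivity
  refine ⟨min (1 / 2) (min (ε / (8 * (C1 * (C1 * M)))) (ε / (4 * (C1 * (1 + C1 * M * M))))),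
    lt_min (by norm_num) (lt_min (div_pos hε hp1) (div_pos hε hp2)), ?_⟩
  intro w y w2 m c hmm hmM hwM h1 h2 h3
  obtain ⟨e, he⟩ : ∃ e, e = min (1 / 2) (min (ε / (8 * (C1 * (C1 * M))))
    (ε / (4 * (C1 * (1 + C1 * M * M))))) := ⟨_, rfl⟩
  rw [← he] at h1 h2 h3
  have he1 : e ≤ 1 / 2 := by rw [he]; exact min_le_left _ _
  have he2 : e * (8 * (C1 * (C1 * M))) ≤ ε := by
    rw [← le_div_iff₀ hp1, he]
    exact (min_le_right _ _).trans (min_le_left _ _)
  have he3 : e * (4 * (C1 * (1 + C1 * M * M))) ≤ ε := by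
    rw [← le_div_iff₀ hp2, he]
    exact (min_le_right _ _).trans (min_le_right _ _)
  have h4 : na B a (w2 - m • w) ≤ 2 * e := by
    have := na_add_le B a (w2 - y) (y - m • w)
    rw [sub_add_sub_cancel] at this
    linarith
  have h5 : na B a w2 ≤ 1 + C1 * M * M := by
    have h6 := na_add_le B a (w2 - m • w) (m • w)
    rw [sub_add_cancel] at h6
    have h7 := hm (m • (1 : D)) w
    rw [smul_one_mul] at h7
    have h8 : C1 * na B a (m • (1 : D)) * na B a w ≤ C1 * M * M :=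
      mul_le_mul (mul_le_mul_of_nonneg_left hmM (by linarith)) hwM (na_nonneg _ _ _)
        (by positivity)
    linarith
  have e1 : c • w2 - w = (c - star m) • w2 + star m • (w2 - m • w) := by
    rw [sub_smul, smul_sub, smul_smul, mul_comm (star m), hmm, one_smul]
    abel
  have h6 : na B a ((c - star m) • w2) ≤ C1 * e * (1 + C1 * M * M) := by
    have h7 := hm (algebraMap K D (c - star m)) w2
    rw [← Algebra.smul_def] at h7
    refine h7.trans ?_
    exact mul_le_mul (mul_le_mul_of_nonneg_left (le_of_lt h3) (by linarith)) h5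
      (na_nonneg _ _ _) (by
        have : 0 ≤ e := (na_nonneg _ _ _).trans h2.le
        positivity)
  have h7 : na B a (star m • (w2 - m • w)) ≤ C1 * (C1 * M) * (2 * e) := by
    have h8 := hm (star m • (1 : D)) (w2 - m • w)
    rw [smul_one_mul] at h8
    refine h8.trans ?_
    have h9 : na B a (star m • (1 : D)) ≤ C1 * M := by
      have := hst (m • (1 : D))
      rw [hsm, star_one] at this
      exact this.trans (mul_le_mul_of_nonneg_left hmM (by linarith))
    exact mul_le_mul (mul_le_mul_of_nonneg_left h9 (by linarith)) h4 (na_nonneg _ _ _)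
      (by positivity)
  have h8 := na_add_le B a ((c - star m) • w2) (star m • (w2 - m • w))
  rw [← e1] at h8
  have h9 : C1 * e * (1 + C1 * M * M) = e * (4 * (C1 * (1 + C1 * M * M))) / 4 := by ring
  have h10 : C1 * (C1 * M) * (2 * e) = e * (8 * (C1 * (C1 * M))) / 4 := by ring
  linarith

/-- **Reach**, from the local step. -/
theorem reach_gen {ab : ι → AbsoluteValue k ℝ} {C : Cub K D} (B : Basis (Fin N) k D)
    (h2 : (2 : K) ≠ 0)
    (hk : ∀ (c : k) (x : D), star (c • x) = c • star x)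
    (hsm : ∀ (c : K) (x : D), star (c • x) = star c • star x)
    (hN : ∀ x, C.N (star x) = star (C.N x)) {s : K} (hs : star s = -s) (hs0 : s ≠ 0)
    (hfix : ∀ c : K, star c = c → ∃ e : k, algebraMap k K e = c)
    {μ : Fin 4 → K} (hμ : Function.Injective μ) (hμ1 : ∀ i, μ i * star (μ i) = 1) {x u : D}
    (hu : u * star u = 1) (hT : C.T ((x - 1) * u) = 0)
    {P : Set ι} (hP : P.Finite) {V0 : Set ι} {Good : ι → D → Prop}
    (hinv : ∀ v ∈ V0, ∀ (w : D) (l : K), l * star l = 1 → Good v w → Good v (l • w))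
    (LINE : ∀ u' : D, u' * star u' = 1 → C.T ((x - 1) * u') = 0 → ∀ ξ : ι → D,
      (∀ p ∈ P, star (ξ p) = ξ p ∧ be C ((x - 1) * u') (ξ p) ≠ 0) → ∀ ε : ℝ, 0 < ε →
      ∃ w : D, w * star w = 1 ∧ C.T ((x - 1) * w) = 0 ∧
        (∀ p ∈ P, na B (ab p) (w - u' * star (be C ((x - 1) * u') (ξ p)) *
          (be C ((x - 1) * u') (ξ p))⁻¹) < ε) ∧
        ∀ v ∈ V0, v ∉ P → Good v u' → Good v w)
    (K1 : ∀ l : ι → K, (∀ p ∈ P, l p * star (l p) = 1) → ∀ ε : ℝ, 0 < ε →
      ∃ c : K, c * star c = 1 ∧ ∀ p ∈ P, H3.nK B (ab p) (c - l p) < ε)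
    {ω : Filter ℕ} [ω.NeBot] (hω : ω ≤ atTop) (w : ι → ℕ → D)
    (hw : ∀ p ∈ P, H339.Bd B (ab p) ω (w p) ∧
      H339.AE B (ab p) ω (fun j => star (w p j) * w p j) (fun _ => 1) ∧
      H339.Nu B (ab p) ω fun j => C.T ((x - 1) * w p j) • (1 : D))
    (step1 : ∀ p ∈ P, ∃ ξ : D, star ξ = ξ ∧ be C ((x - 1) * u) ξ ≠ 0 ∧ ∃ γ : ℝ, 0 < γ ∧
      ∀ u1 : D, u1 * star u1 = 1 → C.T ((x - 1) * u1) = 0 →
        na B (ab p) (u1 - u * star (be C ((x - 1) * u) ξ) * (be C ((x - 1) * u) ξ)⁻¹) < γ →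
        ∃ n : ℕ → D, H339.Bd B (ab p) ω n ∧ H339.AE B (ab p) ω
          (fun j => (C.T (w p j * (x - 1) * w p j * u1⁻¹) • (1 : D)) * n j) fun _ => 1)
    {ε : ℝ} (hε : 0 < ε) (J : ℕ) :
    ∃ w1 : D, w1 * star w1 = 1 ∧ C.T ((x - 1) * w1) = 0 ∧
      (∀ p ∈ P, ∃ j, J ≤ j ∧ na B (ab p) (w1 - w p j) < ε) ∧
      ∀ v ∈ V0, v ∉ P → Good v u → Good v w1 := by
  classical
  -- the first step
  choose! ξ1 hξ1 hbe1 γ hγ hst1 using step1
  obtain ⟨δ0, hδ0, hδ0P⟩ := exists_min hP γ fun p hp => hγ p hp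
  obtain ⟨u1, hu1, hTu1, hu1P, hu1V⟩ := LINE u hu hT ξ1 (fun p hp => ⟨hξ1 p hp, hbe1 p hp⟩) δ0 hδ0
  -- the second step
  have key : ∀ p ∈ P, ∃ M : ℝ, 0 < M ∧ ∀ e : ℝ, 0 < e → ∃ j, J ≤ j ∧ ∃ (m : K) (ξ : D),
      m * star m = 1 ∧ na B (ab p) (m • (1 : D)) ≤ M ∧ na B (ab p) (w p j) ≤ M ∧ star ξ = ξ ∧
      be C ((x - 1) * u1) ξ ≠ 0 ∧ na B (ab p) (u1 * star (be C ((x - 1) * u1) ξ) *
        (be C ((x - 1) * u1) ξ)⁻¹ - m • w p j) < e := by
    intro p hp
    obtain ⟨n, hn, hn1⟩ := hst1 p hp u1 hu1 hTu1 ((hu1P p hp).trans_le (hδ0P p hp))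
    obtain ⟨h3, h4, h5⟩ := hw p hp
    obtain ⟨m, ξ, hm, hmb, hξ, hbe, hae⟩ := H339.n1_seq C h2 hk hsm hN hs hs0 hfix hμ hμ1 hu1 hTu1
      h3 hn h4 h5 hn1
    obtain ⟨M1, hM1⟩ := hmb
    obtain ⟨M2, hM2⟩ := h3
    refine ⟨|M1| + |M2| + 1, by positivity, fun e he => ?_⟩
    have h6 : ∀ᶠ j in ω, J ≤ j := hω (eventually_ge_atTop J)
    obtain ⟨j, h7, h8, h9, h10, h11⟩ := (h6.and (hM1.and (hM2.and (hbe.and (hae e he))))).exists
    refine ⟨j, h7, m j, ξ j, hm j, ?_, ?_, hξ j, h10, h11⟩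
    · have := le_abs_self M1
      have := abs_nonneg M2
      linarith
    · have := le_abs_self M2
      have := abs_nonneg M1
      linarith
  choose! M hM hMe using key
  choose! e0 he0 hsc using fun p (hp : p ∈ P) => scale_near B (ab p) hk hsm (hM p hp) hε
  obtain ⟨e, he, heP⟩ := exists_min hP e0 fun p hp => he0 p hp
  choose! j hj m ξ hm hmM hwM hξ hbe hnear using fun p (hp : p ∈ P) => hMe p hp e he
  obtain ⟨w2, hw2, hTw2, hw2P, hw2V⟩ := LINE u1 hu1 hTu1 ξ (fun p hp => ⟨hξ p hp, hbe p hp⟩) e he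
  obtain ⟨c, hc, hcP⟩ := K1 (fun p => star (m p)) (fun p hp => by
    rw [star_star, mul_comm]
    exact hm p hp) e he
  refine ⟨c • w2, ?_, ?_, fun p hp => ⟨j p, hj p hp, ?_⟩, fun v hv hvP hg => ?_⟩
  · rw [hsm, smul_mul_smul_comm, hw2, hc, one_smul]
  · rw [mul_smul_comm, map_smul, hTw2, smul_zero]
  · exact hsc p hp (w p (j p)) _ w2 (m p) c (hm p hp) (hmM p hp) (hwM p hp)
      ((hnear p hp).trans_le (heP p hp)) ((hw2P p hp).trans_le (heP p hp))
      ((hcP p hp).trans_le (heP p hp))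
  · exact hinv v hv _ _ hc (hw2V v hv hvP (hu1V v hv hvP hg))

end Vale.Agent.P011.H756
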